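import Mathlib
import Vale.Agent.P109.Defs

set_option linter.all false

section

section

open MeasureTheory Set
open scoped ContDiff Manifold

namespace Vale.Agent.P109

/-- Isomorphism modulo null sets of two invertible transformations, as in the problem: a bijection
between invariant conull measurable sets, measurable with measurable inverse, carrying `μ` to `ν`
and intertwining the transformations. -/
def IsoModNull {X Y : Type*} [MeasurableSpace X] [MeasurableSpace Y]
    (μ : Measure X) (T : X → X) (ν : Measure Y) (S : Y → Y) : Prop :=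
  ∃ (X₀ : Set X) (Y₀ : Set Y), MeasurableSet X₀ ∧ MeasurableSet Y₀ ∧ μ X₀ᶜ = 0 ∧ ν Y₀ᶜ = 0 ∧
    T ⁻¹' X₀ = X₀ ∧ S ⁻¹' Y₀ = Y₀ ∧
    ∃ F : X₀ ≃ᵐ Y₀, (∀ (x : X₀) (hx : T x ∈ X₀), ((F ⟨T x, hx⟩ : Y₀) : Y) = S (F x)) ∧
      (μ.comap ((↑) : X₀ → X)).map F = ν.comap ((↑) : Y₀ → Y)

/-- `ν` is given in the local coordinates of the atlas of `M` by a smooth strictly positive
density with respect to Lebesgue measure. -/
def IsSmoothPositiveVolume {d : ℕ} {M : Type*} [TopologicalSpace M]
    [ChartedSpace (EuclideanSpace ℝ (Fin d)) M] [MeasurableSpace M] (ν : Measure M) : Prop :=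
  ∀ e ∈ atlas (EuclideanSpace ℝ (Fin d)) M, ∃ ρ : EuclideanSpace ℝ (Fin d) → ℝ,
    ContDiffOn ℝ ∞ ρ e.target ∧ (∀ x ∈ e.target, 0 < ρ x) ∧
    (ν.restrict e.source).map e =
      (volume.restrict e.target).withDensity (fun x => ENNReal.ofReal (ρ x))

/-- `(X, μ, T)` has a smooth positive-volume model on a closed (compact boundaryless)
manifold of dimension `d`. -/
def HasSmoothModel (d : ℕ) {X : Type*} [MeasurableSpace X] (μ : Measure X) (T : X → X) : Prop :=
  ∃ (M : Type) (_ : TopologicalSpace M) (_ : T2Space M) (_ : SecondCountableTopology M)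
    (_ : CompactSpace M) (_ : ChartedSpace (EuclideanSpace ℝ (Fin d)) M)
    (_ : IsManifold (𝓡 d) ∞ M) (_ : MeasurableSpace M) (_ : BorelSpace M)
    (ν : Measure M) (_ : IsProbabilityMeasure ν)
    (S : M ≃ₘ^∞⟮𝓡 d, 𝓡 d⟯ M),
    IsSmoothPositiveVolume (d := d) ν ∧ MeasurePreserving S ν ν ∧ IsoModNull μ T ν S

/-- The odometer group `lim Z/m_n`. -/
def odometer (m : ℕ → ℕ) (hm : ∀ n, m n ∣ m (n + 1)) : AddSubgroup (∀ n, ZMod (m n)) where
  carrier := {x | ∀ n, ZMod.castHom (hm n) (ZMod (m n)) (x (n + 1)) = x n}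
  zero_mem' := by intro n; simp
  add_mem' := by
    intro a b ha hb n
    rw [Pi.add_apply, Pi.add_apply, map_add, ha n, hb n]
  neg_mem' := by
    intro a ha n
    rw [Pi.neg_apply, Pi.neg_apply, map_neg, ha n]

end Vale.Agent.P109
end
end

section

section

open MeasureTheory Set Filter Topology
open scoped symmDiff

namespace Vale.Agent.P109

theorem dvd_of_le_chain (m : ℕ → ℕ) (hm : ∀ n, m n ∣ m (n + 1)) {n k : ℕ} (h : n ≤ k) :
    m n ∣ m k := by
  induction h with
  | refl => exact dvd_rfl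
  | step _ ih => exact ih.trans (hm _)

/-- transport a colour at level `k` down to level `n` -/
noncomputable def down (m : ℕ → ℕ) (n k : ℕ) (x : ZMod (m k)) : ZMod (m n) := ZMod.cast x

theorem down_eq_castHom (m : ℕ → ℕ) {n k : ℕ} (h : m n ∣ m k) (x : ZMod (m k)) :
    down m n k x = ZMod.castHom h (ZMod (m n)) x := rfl

theorem down_down (m : ℕ → ℕ) {n k l : ℕ} (h : m n ∣ m k) (h' : m k ∣ m l) (x : ZMod (m l)) :
    down m n k (down m k l x) = down m n l x := by
  rw [down_eq_castHom m h, down_eq_castHom m h', down_eq_castHom m (h.trans h')]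
  have := ZMod.castHom_comp h h'
  rw [← this]
  rfl

theorem down_self (m : ℕ → ℕ) (n : ℕ) (x : ZMod (m n)) : down m n n x = x := by
  simp [down]

theorem down_add_one (m : ℕ → ℕ) {n k : ℕ} (h : m n ∣ m k) (x : ZMod (m k)) :
    down m n k (x + 1) = down m n k x + 1 := by
  rw [down_eq_castHom m h, down_eq_castHom m h, map_add, map_one]

theorem tendsto_symmDiff_preimage {Y : Type*} [MetricSpace Y] [CompactSpace Y] [MeasurableSpace Y]
    [BorelSpace Y] (ν : Measure Y) [IsProbabilityMeasure ν]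
    (S : ℕ → Y → Y) (L : Y → Y) (hS : ∀ n, Continuous (S n)) (hL : Continuous L)
    (hSmp : ∀ n, MeasurePreserving (S n) ν ν) (hLmp : MeasurePreserving L ν ν)
    (hconv : TendstoUniformly S L atTop) (A : Set Y) (hA : MeasurableSet A) :
    Tendsto (fun k => ν ((S k ⁻¹' A) ∆ (L ⁻¹' A))) atTop (𝓝 0) := by
  let f : ℕ → C(Y, Y) := fun k => ⟨S k, hS k⟩
  let g : C(Y, Y) := ⟨L, hL⟩
  have hf : Tendsto f atTop (𝓝 g) := by
    rw [ContinuousMap.tendsto_iff_tendstoUniformly]
    exact hconv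
  exact tendsto_measure_symmDiff_preimage_nhds_zero (f := f) (g := g) hf
    (Eventually.of_forall fun k => hSmp k) hLmp hA.nullMeasurableSet (measure_ne_top _ _)

/-- Abstract limit of periodic colourings along a uniformly convergent sequence of measure
preserving homeomorphisms. -/
theorem color_limit {Y : Type*} [MetricSpace Y] [CompactSpace Y] [MeasurableSpace Y] [BorelSpace Y]
    (ν : Measure Y) [IsProbabilityMeasure ν]
    (S : ℕ → Y → Y) (L : Y → Y) (hS : ∀ n, Continuous (S n)) (hL : Continuous L)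
    (hSmp : ∀ n, MeasurePreserving (S n) ν ν) (hLmp : MeasurePreserving L ν ν)
    (hconv : TendstoUniformly S L atTop)
    (m : ℕ → ℕ) (hpos : ∀ n, 0 < m n) (hm : ∀ n, m n ∣ m (n + 1))
    (c : ∀ n, Y → ZMod (m n)) (hc : ∀ n i, MeasurableSet (c n ⁻¹' {i}))
    (hc1 : ∀ n y, c n (S n y) = c n y + 1)
    (G : ℕ → Set Y) (hG : ∀ n, MeasurableSet (G n)) (η : ℕ → ENNReal) (hη : ∑' n, η n ≠ ⊤)
    (hGη : ∀ n, ν (G n)ᶜ ≤ η n)
    (hG2 : ∀ n, ∀ y ∈ G n, ZMod.castHom (hm n) (ZMod (m n)) (c (n + 1) y) = c n y)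
    (ε : ℕ → ℝ) (hε : Tendsto ε atTop (𝓝 0))
    (hG3 : ∀ n, ∀ y ∈ G n, ∀ y' ∈ G n, c n y = c n y' → dist y y' ≤ ε n) :
    ∃ b : ∀ n, Y → ZMod (m n), (∀ n i, MeasurableSet (b n ⁻¹' {i})) ∧
      (∀ n, ∀ᵐ y ∂ν, b n (L y) = b n y + 1) ∧
      (∀ n, ∀ᵐ y ∂ν, ZMod.castHom (hm n) (ZMod (m n)) (b (n + 1) y) = b n y) ∧
      ∃ Y₁ : Set Y, MeasurableSet Y₁ ∧ ν Y₁ᶜ = 0 ∧
        ∀ y ∈ Y₁, ∀ y' ∈ Y₁, (∀ n, b n y = b n y') → y = y' := by
  classical
  have hne : ∀ n, NeZero (m n) := fun n => ⟨(hpos n).ne'⟩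
  have hdiv : ∀ {n k : ℕ}, n ≤ k → m n ∣ m k := fun h => dvd_of_le_chain m hm h
  -- the conull set of eventually good points
  let GG : ℕ → Set Y := fun N => ⋂ k ≥ N, G k
  have hGGm : ∀ N, MeasurableSet (GG N) := fun N =>
    MeasurableSet.iInter fun k => MeasurableSet.iInter fun _ => hG k
  have hGGmono : ∀ {N N' : ℕ}, N ≤ N' → GG N ⊆ GG N' := by
    intro N N' h y hy
    simp only [GG, mem_iInter] at hy ⊢
    exact fun k hk => hy k (h.trans hk)
  have hGGν : Tendsto (fun N => ν (GG N)ᶜ) atTop (𝓝 0) := by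
    have h1 : Tendsto (fun N => ∑' k, η (k + N)) atTop (𝓝 0) := ENNReal.tendsto_sum_nat_add η hη
    refine tendsto_of_tendsto_of_tendsto_of_le_of_le tendsto_const_nhds h1
      (fun _ => zero_le) (fun N => ?_)
    have : (GG N)ᶜ ⊆ ⋃ k, (G (k + N))ᶜ := by
      intro y hy
      simp only [GG, mem_compl_iff, mem_iInter, not_forall] at hy
      obtain ⟨k, hk, hy⟩ := hy
      refine mem_iUnion.2 ⟨k - N, ?_⟩
      rw [Nat.sub_add_cancel hk]
      exact hy
    refine (measure_mono this).trans ((measure_iUnion_le _).trans ?_)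
    exact ENNReal.tsum_le_tsum fun k => hGη _
  let Y₀ : Set Y := ⋃ N, GG N
  have hY₀m : MeasurableSet Y₀ := MeasurableSet.iUnion hGGm
  have hY₀ : ν Y₀ᶜ = 0 := by
    refine le_antisymm (ge_of_tendsto' hGGν fun N => ?_) zero_le
    exact measure_mono (compl_subset_compl.2 (subset_iUnion GG N))
  -- stabilisation
  have hstab : ∀ N y, y ∈ GG N → ∀ k, N ≤ k → down m N k (c k y) = c N y := by
    intro N y hy k hk
    induction k, hk using Nat.le_induction with
    | base => exact down_self m N _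
    | succ k hk ih =>
      have hyk : y ∈ G k := by
        simp only [GG, mem_iInter] at hy
        exact hy k hk
      rw [← ih, ← hG2 k y hyk, ← down_eq_castHom m (hm k), down_down m (hdiv hk) (hm k)]
  have hstab2 : ∀ n N y, n ≤ N → y ∈ GG N → ∀ k, N ≤ k →
      down m n k (c k y) = down m n N (c N y) := by
    intro n N y hnN hy k hk
    rw [← hstab N y hy k hk, down_down m (hdiv hnN) (hdiv hk)]
  -- the limit colouring
  let B : ∀ n, ZMod (m n) → Set Y := fun n i => {y | ∃ N, ∀ k ≥ N, down m n k (c k y) = i}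
  have hcm : ∀ k (A : Set (ZMod (m k))), MeasurableSet (c k ⁻¹' A) := by
    intro k A
    have : c k ⁻¹' A = ⋃ i ∈ A, c k ⁻¹' {i} := by
      ext y; simp
    rw [this]
    exact MeasurableSet.biUnion (Set.to_countable A) fun i _ => hc k i
  have hBm : ∀ n i, MeasurableSet (B n i) := by
    intro n i
    have : B n i = ⋃ N, ⋂ k ≥ N, c k ⁻¹' {x | down m n k x = i} := by
      ext y
      simp only [ge_iff_le, mem_ofPred_eq, preimage_ofPred_eq, mem_iUnion, mem_iInter, B]
    rw [this]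
    exact MeasurableSet.iUnion fun N => MeasurableSet.iInter fun k => MeasurableSet.iInter fun _ =>
      hcm k _
  have hBuniq : ∀ n i j y, y ∈ B n i → y ∈ B n j → i = j := by
    rintro n i j y ⟨N, hN⟩ ⟨N', hN'⟩
    rw [← hN (max N N') (le_max_left _ _), ← hN' (max N N') (le_max_right _ _)]
  let b : ∀ n, Y → ZMod (m n) := fun n y => if h : ∃ i, y ∈ B n i then h.choose else 0
  have hb : ∀ n i y, y ∈ B n i → b n y = i := by
    intro n i y hy
    have h : ∃ i, y ∈ B n i := ⟨i, hy⟩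
    simp only [b, dif_pos h]
    exact hBuniq n _ _ y h.choose_spec hy
  have hbm : ∀ n i, MeasurableSet (b n ⁻¹' {i}) := by
    intro n i
    have : b n ⁻¹' {i} = B n i ∪ (if i = 0 then (⋃ j, B n j)ᶜ else ∅) := by
      ext y
      constructor
      · intro hy
        by_cases h : ∃ j, y ∈ B n j
        · obtain ⟨j, hj⟩ := h
          left
          have := hb n j y hj
          rw [mem_preimage, this] at hy
          rw [mem_singleton_iff] at hy
          rwa [← hy]
        · right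
          have h0 : b n y = 0 := by simp only [b, dif_neg h]
          rw [mem_preimage, h0, mem_singleton_iff] at hy
          rw [if_pos hy.symm]
          simpa only [compl_iUnion, mem_iInter, mem_compl_iff, not_exists] using h
      · rintro (hy | hy)
        · exact hb n i y hy
        · split_ifs at hy with hi
          · have h : ¬ ∃ j, y ∈ B n j := by simpa using hy
            have h0 : b n y = 0 := by simp only [b, dif_neg h]
            rw [mem_preimage, h0, hi]
            rfl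
          · exact hy.elim
    rw [this]
    refine (hBm n i).union ?_
    split_ifs
    · exact (MeasurableSet.iUnion (hBm n)).compl
    · exact MeasurableSet.empty
  have hbval : ∀ n N y, n ≤ N → y ∈ GG N → b n y = down m n N (c N y) := by
    intro n N y hnN hy
    exact hb n _ y ⟨N, fun k hk => hstab2 n N y hnN hy k hk⟩
  refine ⟨b, hbm, ?_, ?_, Y₀, hY₀m, hY₀, ?_⟩
  · -- equivariance
    intro n
    rw [ae_iff]
    -- bad set for the comparison of L and S k
    have hD : Tendsto (fun k => ∑ i : ZMod (m n),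
        ν ((S k ⁻¹' (b n ⁻¹' {i})) ∆ (L ⁻¹' (b n ⁻¹' {i})))) atTop (𝓝 0) := by
      have : Tendsto (fun k => ∑ i : ZMod (m n),
          ν ((S k ⁻¹' (b n ⁻¹' {i})) ∆ (L ⁻¹' (b n ⁻¹' {i})))) atTop
          (𝓝 (∑ _i : ZMod (m n), (0 : ENNReal))) := by
        refine tendsto_finsetSum _ fun i _ => ?_
        exact tendsto_symmDiff_preimage ν S L hS hL hSmp hLmp hconv _ (hbm n i)
      simpa only [Finset.sum_const_zero] using this
    have hbound : ∀ k ≥ n, ν {y | ¬ b n (L y) = b n y + 1} ≤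
        (∑ i : ZMod (m n), ν ((S k ⁻¹' (b n ⁻¹' {i})) ∆ (L ⁻¹' (b n ⁻¹' {i})))) +
          (ν (GG k)ᶜ + ν (GG k)ᶜ) := by
      intro k hk
      have hsub : {y | ¬ b n (L y) = b n y + 1} ⊆
          (⋃ i : ZMod (m n), (S k ⁻¹' (b n ⁻¹' {i})) ∆ (L ⁻¹' (b n ⁻¹' {i}))) ∪
            ((S k ⁻¹' (GG k)ᶜ) ∪ (GG k)ᶜ) := by
        intro y hy
        by_contra hcon
        simp only [mem_union, not_or, mem_compl_iff, mem_preimage, not_not, mem_iUnion,
          not_exists] at hcon
        obtain ⟨h1, h2, h3⟩ := hcon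
        apply hy
        have e1 : b n (L y) = b n (S k y) := by
          have := h1 (b n (S k y))
          simp only [Set.mem_symmDiff, mem_preimage, mem_singleton_iff, true_and, not_or,
            not_not, not_true, and_false] at this
          exact this.1
        rw [e1, hbval n k _ hk h2, hbval n k _ hk h3, hc1, down_add_one m (hdiv hk)]
      refine (measure_mono hsub).trans ((measure_union_le _ _).trans ?_)
      refine add_le_add ?_ ?_
      · exact measure_iUnion_fintype_le _ _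
      · refine (measure_union_le _ _).trans ?_
        rw [(hSmp k).measure_preimage (hGGm k).compl.nullMeasurableSet]
    have hlim : Tendsto (fun k => (∑ i : ZMod (m n),
        ν ((S k ⁻¹' (b n ⁻¹' {i})) ∆ (L ⁻¹' (b n ⁻¹' {i})))) +
          (ν (GG k)ᶜ + ν (GG k)ᶜ)) atTop (𝓝 0) := by
      have := hD.add (hGGν.add hGGν)
      simpa only [add_zero] using this
    refine le_antisymm (ge_of_tendsto hlim ?_) zero_le
    filter_upwards [eventually_ge_atTop n] with k hk
    exact hbound k hk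
  · -- compatibility
    intro n
    rw [ae_iff]
    refine measure_mono_null (fun y hy => ?_) hY₀
    intro hyY
    apply hy
    obtain ⟨N, hN⟩ := mem_iUnion.1 hyY
    have hN' := hGGmono (le_max_left N (n + 1)) hN
    rw [hbval (n + 1) _ y (le_max_right N (n + 1)) hN',
      hbval n _ y ((Nat.le_succ n).trans (le_max_right N (n + 1))) hN',
      ← down_eq_castHom m (hm n), down_down m (hm n) (hdiv (le_max_right N (n + 1)))]
  · -- separation
    intro y hy y' hy' h
    obtain ⟨N, hN⟩ := mem_iUnion.1 hy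
    obtain ⟨N', hN'⟩ := mem_iUnion.1 hy'
    have hle : ∀ k ≥ max N N', dist y y' ≤ ε k := by
      intro k hk
      have h1 : y ∈ GG k := hGGmono ((le_max_left _ _).trans hk) hN
      have h2 : y' ∈ GG k := hGGmono ((le_max_right _ _).trans hk) hN'
      have e1 := hbval k k y le_rfl h1
      have e2 := hbval k k y' le_rfl h2
      rw [down_self] at e1 e2
      refine hG3 k y ?_ y' ?_ (by rw [← e1, ← e2, h k])
      · simp only [GG, mem_iInter] at h1; exact h1 k le_rfl
      · simp only [GG, mem_iInter] at h2; exact h2 k le_rfl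
    have : dist y y' ≤ 0 := by
      refine ge_of_tendsto hε ?_
      filter_upwards [eventually_ge_atTop (max N N')] with k hk
      exact hle k hk
    exact dist_le_zero.1 this

end Vale.Agent.P109
end
end

section

section

open MeasureTheory Set Filter Topology
open scoped symmDiff

namespace Vale.Agent.P109

section
variable {X : Type*} [MeasurableSpace X] (μ : Measure X) [IsProbabilityMeasure μ]
  (T : X ≃ᵐ X) (hT : MeasurePreserving T μ μ)

include hT in
/-- colours are equidistributed -/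
theorem measure_color (k : ℕ) (hk : 0 < k) (a : X → ZMod k)
    (ha : ∀ i, MeasurableSet (a ⁻¹' {i})) (ha1 : ∀ᵐ x ∂μ, a (T x) = a x + 1) (j : ZMod k) :
    μ (a ⁻¹' {j}) = (k : ENNReal)⁻¹ := by
  have : NeZero k := ⟨hk.ne'⟩
  have hstep : ∀ j : ZMod k, μ (a ⁻¹' {j + 1}) = μ (a ⁻¹' {j}) := by
    intro j
    rw [← hT.measure_preimage (ha (j + 1)).nullMeasurableSet]
    refine measure_congr ?_
    filter_upwards [ha1] with x hx
    apply propext
    change T x ∈ a ⁻¹' {j + 1} ↔ x ∈ a ⁻¹' {j}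
    simp only [mem_preimage, mem_singleton_iff, hx, add_left_inj]
  have hconst : ∀ n : ℕ, μ (a ⁻¹' {(n : ZMod k)}) = μ (a ⁻¹' {0}) := by
    intro n
    induction n with
    | zero => simp
    | succ n ih => rw [Nat.cast_succ, hstep, ih]
  have hall : ∀ j : ZMod k, μ (a ⁻¹' {j}) = μ (a ⁻¹' {0}) := by
    intro j
    have := hconst j.val
    rwa [ZMod.natCast_zmod_val] at this
  have hsum : ∑ j : ZMod k, μ (a ⁻¹' {j}) = 1 := by
    have h1 : (univ : Set X) = ⋃ j : ZMod k, a ⁻¹' {j} := by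
      ext x; simp
    rw [← measure_univ (μ := μ), h1, measure_iUnion ?_ ha, tsum_fintype]
    intro i j hij
    exact Disjoint.preimage _ (by simpa using hij)
  rw [Finset.sum_congr rfl (fun j _ => hall j), Finset.sum_const, Finset.card_univ, ZMod.card,
    nsmul_eq_mul] at hsum
  rw [hall j]
  exact ENNReal.eq_inv_of_mul_eq_one_left (by rwa [mul_comm])

/-- the combined colouring with natural number values -/
def code (m : ℕ → ℕ) (a : ∀ n, X → ZMod (m n)) (x : X) : ℕ → ℕ := fun n => (a n x).val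

theorem measurable_code (m : ℕ → ℕ) (hpos : ∀ n, 0 < m n) (a : ∀ n, X → ZMod (m n))
    (ha : ∀ n i, MeasurableSet (a n ⁻¹' {i})) : Measurable (code m a) := by
  have hne : ∀ n, NeZero (m n) := fun n => ⟨(hpos n).ne'⟩
  refine measurable_pi_lambda _ fun n => ?_
  refine measurable_to_countable' fun j => ?_
  have : (fun x => code m a x n) ⁻¹' {j} = ⋃ i ∈ {i : ZMod (m n) | i.val = j}, a n ⁻¹' {i} := by
    ext x
    simp only [code, mem_preimage, mem_singleton_iff, mem_ofPred_eq, mem_iUnion, exists_prop, exists_eq_right']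
  rw [this]
  exact MeasurableSet.biUnion (Set.to_countable _) fun i _ => ha n i

omit [MeasurableSpace X] in
theorem code_inj (m : ℕ → ℕ) (hpos : ∀ n, 0 < m n) {Y : Type*} (a : ∀ n, X → ZMod (m n))
    (b : ∀ n, Y → ZMod (m n)) {x : X} {y : Y} :
    (fun n => (a n x).val) = (fun n => (b n y).val) ↔ ∀ n, a n x = b n y := by
  have hne : ∀ n, NeZero (m n) := fun n => ⟨(hpos n).ne'⟩
  constructor
  · intro h n
    exact ZMod.val_injective _ (congrFun h n)
  · intro h
    ext n
    rw [h n]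

theorem down_of_compat (m : ℕ → ℕ) (hm : ∀ n, m n ∣ m (n + 1)) (w : ∀ n, ZMod (m n))
    (hw : ∀ n, ZMod.castHom (hm n) (ZMod (m n)) (w (n + 1)) = w n) {i N : ℕ} (h : i ≤ N) :
    down m i N (w N) = w i := by
  induction N, h using Nat.le_induction with
  | base => exact down_self m _ _
  | succ k hk ih =>
    rw [← down_down m (dvd_of_le_chain m hm hk) (hm k), down_eq_castHom m (hm k), hw k, ih]

include hT in
theorem code_cylinder (m : ℕ → ℕ) (hpos : ∀ n, 0 < m n) (hm : ∀ n, m n ∣ m (n + 1))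
    (a : ∀ n, X → ZMod (m n)) (ha : ∀ n i, MeasurableSet (a n ⁻¹' {i}))
    (ha1 : ∀ n, ∀ᵐ x ∂μ, a n (T x) = a n x + 1)
    (ha2 : ∀ n, ∀ᵐ x ∂μ, ZMod.castHom (hm n) (ZMod (m n)) (a (n + 1) x) = a n x)
    (N : ℕ) (s : Finset ℕ) (hs : ∀ i ∈ s, i ≤ N) (A : Set (∀ i : s, (fun _ => ℕ) (i : ℕ))) :
    μ (code m a ⁻¹' (cylinder s A)) = ∑' _j : {j : ZMod (m N) | (fun i : s => (down m i N j).val)
      ∈ A}, (m N : ENNReal)⁻¹ := by
  have hne : ∀ n, NeZero (m n) := fun n => ⟨(hpos n).ne'⟩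
  have hall : ∀ᵐ x ∂μ, ∀ i ≤ N, down m i N (a N x) = a i x := by
    have h2 : ∀ᵐ x ∂μ, ∀ n, ZMod.castHom (hm n) (ZMod (m n)) (a (n + 1) x) = a n x :=
      ae_all_iff.2 ha2
    filter_upwards [h2] with x hx i hi
    exact down_of_compat m hm (fun n => a n x) hx hi
  have h1 : μ (code m a ⁻¹' (cylinder s A)) =
      μ (a N ⁻¹' {j : ZMod (m N) | (fun i : s => (down m i N j).val) ∈ A}) := by
    refine measure_congr ?_
    filter_upwards [hall] with x hx
    apply propext
    change code m a x ∈ cylinder s A ↔ a N x ∈ _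
    rw [mem_cylinder]
    have : s.restrict (code m a x) = fun i : s => (down m i N (a N x)).val := by
      ext i
      rw [hx i (hs i i.2)]
      rfl
    rw [this]
    rfl
  rw [h1]
  have h3 : a N ⁻¹' {j : ZMod (m N) | (fun i : s => (down m i N j).val) ∈ A} =
      ⋃ j : {j : ZMod (m N) | (fun i : s => (down m i N j).val) ∈ A}, a N ⁻¹' {(j : ZMod (m N))} := by
    ext x
    simp only [preimage_ofPred_eq, mem_ofPred_eq, iUnion_coe_set, mem_iUnion, mem_preimage, mem_singleton_iff, exists_prop, exists_eq_right']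
  rw [h3]
  refine (measure_iUnion (f := fun j : {j : ZMod (m N) | (fun i : s => (down m i N j).val) ∈ A} =>
    a N ⁻¹' {(j : ZMod (m N))}) ?_ (fun j => ha N j)).trans ?_
  · intro i j hij
    refine Disjoint.preimage _ ?_
    simpa only [mem_ofPred_eq, disjoint_singleton_left, mem_singleton_iff, imp_false] using fun h =>     hij (Subtype.ext h)
  · exact tsum_congr fun j => measure_color μ T hT (m N) (hpos N) (a N) (ha N) (ha1 N) j

end

theorem code_law_eq {X Y : Type*} [MeasurableSpace X] [MeasurableSpace Y]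
    (μ : Measure X) [IsProbabilityMeasure μ] (ν : Measure Y) [IsProbabilityMeasure ν]
    (T : X ≃ᵐ X) (hT : MeasurePreserving T μ μ) (S : Y ≃ᵐ Y) (hS : MeasurePreserving S ν ν)
    (m : ℕ → ℕ) (hpos : ∀ n, 0 < m n) (hm : ∀ n, m n ∣ m (n + 1))
    (a : ∀ n, X → ZMod (m n)) (ha : ∀ n i, MeasurableSet (a n ⁻¹' {i}))
    (ha1 : ∀ n, ∀ᵐ x ∂μ, a n (T x) = a n x + 1)
    (ha2 : ∀ n, ∀ᵐ x ∂μ, ZMod.castHom (hm n) (ZMod (m n)) (a (n + 1) x) = a n x)
    (b : ∀ n, Y → ZMod (m n)) (hb : ∀ n i, MeasurableSet (b n ⁻¹' {i}))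
    (hb1 : ∀ n, ∀ᵐ y ∂ν, b n (S y) = b n y + 1)
    (hb2 : ∀ n, ∀ᵐ y ∂ν, ZMod.castHom (hm n) (ZMod (m n)) (b (n + 1) y) = b n y) :
    Measure.map (code m a) μ = Measure.map (code m b) ν := by
  have hma := measurable_code m hpos a ha
  have hmb := measurable_code m hpos b hb
  have : IsProbabilityMeasure (Measure.map (code m a) μ) :=
    Measure.isProbabilityMeasure_map hma.aemeasurable
  have : IsProbabilityMeasure (Measure.map (code m b) ν) :=
    Measure.isProbabilityMeasure_map hmb.aemeasurable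
  refine ext_of_generate_finite (measurableCylinders (fun _ : ℕ => ℕ))
    (generateFrom_measurableCylinders (α := fun _ : ℕ => ℕ)).symm
    isPiSystem_measurableCylinders ?_ (by simp)
  intro C hC
  obtain ⟨s, A, hA, rfl⟩ := (mem_measurableCylinders C).1 hC
  rw [Measure.map_apply hma (hA.cylinder s), Measure.map_apply hmb (hA.cylinder s)]
  have hs : ∀ i ∈ s, i ≤ s.sup id := fun i hi => Finset.le_sup (f := id) hi
  rw [code_cylinder μ T hT m hpos hm a ha ha1 ha2 (s.sup id) s hs A,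
    code_cylinder ν S hS m hpos hm b hb hb1 hb2 (s.sup id) s hs A]

/-- invariant core of a conull set -/
theorem exists_invariant_core {X : Type*} [MeasurableSpace X] (μ : Measure X) (T : X ≃ᵐ X)
    (hT : MeasurePreserving T μ μ) (X₁ : Set X) (hX₁ : MeasurableSet X₁) (h0 : μ X₁ᶜ = 0) :
    ∃ X₂ ⊆ X₁, MeasurableSet X₂ ∧ μ X₂ᶜ = 0 ∧ T ⁻¹' X₂ = X₂ := by
  have hT' : MeasurePreserving T.symm μ μ := hT.symm T
  refine ⟨⋂ n : ℕ, (T^[n] ⁻¹' X₁ ∩ T.symm^[n] ⁻¹' X₁), ?_, ?_, ?_, ?_⟩
  · intro x hx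
    exact ((mem_iInter.1 hx) 0).1
  · exact MeasurableSet.iInter fun n => ((T.measurable.iterate n) hX₁).inter
      ((T.symm.measurable.iterate n) hX₁)
  · rw [compl_iInter, measure_iUnion_null_iff]
    intro n
    rw [compl_inter]
    refine measure_union_null ?_ ?_
    · rw [← preimage_compl, (hT.iterate n).measure_preimage hX₁.compl.nullMeasurableSet, h0]
    · rw [← preimage_compl, (hT'.iterate n).measure_preimage hX₁.compl.nullMeasurableSet, h0]
  · ext x
    simp only [mem_preimage, mem_iInter, mem_inter_iff]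
    constructor
    · intro h n
      refine ⟨?_, ?_⟩
      · cases n with
        | zero =>
          have := (h 1).2
          simpa using this
        | succ n =>
          have := (h n).1
          rwa [← Function.iterate_succ_apply] at this
      · have := (h (n + 1)).2
        rwa [Function.iterate_succ_apply, T.symm_apply_apply] at this
    · intro h n
      refine ⟨?_, ?_⟩
      · rw [← Function.iterate_succ_apply]
        exact (h (n + 1)).1
      · cases n with
        | zero => exact (h 1).1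
        | succ n =>
          rw [Function.iterate_succ_apply, T.symm_apply_apply]
          exact (h n).2

theorem exists_core_of_coloring {X : Type*} [MeasurableSpace X] (μ : Measure X) (T : X ≃ᵐ X)
    (hT : MeasurePreserving T μ μ) (m : ℕ → ℕ) (hpos : ∀ n, 0 < m n) (a : ∀ n, X → ZMod (m n))
    (ha : ∀ n i, MeasurableSet (a n ⁻¹' {i}))
    (ha1 : ∀ n, ∀ᵐ x ∂μ, a n (T x) = a n x + 1)
    (ha3 : ∃ X₁ : Set X, MeasurableSet X₁ ∧ μ X₁ᶜ = 0 ∧
      ∀ x ∈ X₁, ∀ x' ∈ X₁, (∀ n, a n x = a n x') → x = x') :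
    ∃ X₂ : Set X, MeasurableSet X₂ ∧ μ X₂ᶜ = 0 ∧ T ⁻¹' X₂ = X₂ ∧
      (∀ x ∈ X₂, ∀ n, a n (T x) = a n x + 1) ∧
      (∀ x ∈ X₂, ∀ x' ∈ X₂, (∀ n, a n x = a n x') → x = x') := by
  have hne : ∀ n, NeZero (m n) := fun n => ⟨(hpos n).ne'⟩
  obtain ⟨X₁, hX₁, hX₁0, hsep⟩ := ha3
  have hE : MeasurableSet {x | ∀ n, a n (T x) = a n x + 1} := by
    have : {x | ∀ n, a n (T x) = a n x + 1} =
        ⋂ n, ⋃ i : ZMod (m n), (T ⁻¹' (a n ⁻¹' {i + 1})) ∩ (a n ⁻¹' {i}) := by
      ext x
      simp only [mem_ofPred_eq, mem_iInter, mem_iUnion, mem_inter_iff, mem_preimage,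
        mem_singleton_iff]
      constructor
      · intro h n
        exact ⟨a n x, h n, rfl⟩
      · intro h n
        obtain ⟨i, h1, h2⟩ := h n
        rw [h1, h2]
    rw [this]
    exact MeasurableSet.iInter fun n => MeasurableSet.iUnion fun i =>
      (T.measurable (ha n (i + 1))).inter (ha n i)
  have hE0 : μ {x | ∀ n, a n (T x) = a n x + 1}ᶜ = 0 := by
    have := ae_all_iff.2 ha1
    rwa [ae_iff] at this
  obtain ⟨X₂, hsub, hX₂, hX₂0, hinv⟩ := exists_invariant_core μ T hT
    (X₁ ∩ {x | ∀ n, a n (T x) = a n x + 1}) (hX₁.inter hE)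
    (by rw [compl_inter]; exact measure_union_null hX₁0 hE0)
  exact ⟨X₂, hX₂, hX₂0, hinv, fun x hx => (hsub hx).2,
    fun x hx x' hx' h => hsep x (hsub hx).1 x' (hsub hx').1 h⟩

/-- two invertible systems with compatible, a.e. equivariant, a.e. separating `ZMod (m n)`-valued
colourings (same `m`) are isomorphic mod null sets. -/
theorem iso_of_colorings {X Y : Type*} [MeasurableSpace X] [StandardBorelSpace X]
    [MeasurableSpace Y] [StandardBorelSpace Y]
    (μ : Measure X) [IsProbabilityMeasure μ] (ν : Measure Y) [IsProbabilityMeasure ν]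
    (T : X ≃ᵐ X) (hT : MeasurePreserving T μ μ) (S : Y ≃ᵐ Y) (hS : MeasurePreserving S ν ν)
    (m : ℕ → ℕ) (hpos : ∀ n, 0 < m n) (hm : ∀ n, m n ∣ m (n + 1))
    (a : ∀ n, X → ZMod (m n)) (ha : ∀ n i, MeasurableSet (a n ⁻¹' {i}))
    (ha1 : ∀ n, ∀ᵐ x ∂μ, a n (T x) = a n x + 1)
    (ha2 : ∀ n, ∀ᵐ x ∂μ, ZMod.castHom (hm n) (ZMod (m n)) (a (n + 1) x) = a n x)
    (ha3 : ∃ X₁ : Set X, MeasurableSet X₁ ∧ μ X₁ᶜ = 0 ∧
      ∀ x ∈ X₁, ∀ x' ∈ X₁, (∀ n, a n x = a n x') → x = x')
    (b : ∀ n, Y → ZMod (m n)) (hb : ∀ n i, MeasurableSet (b n ⁻¹' {i}))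
    (hb1 : ∀ n, ∀ᵐ y ∂ν, b n (S y) = b n y + 1)
    (hb2 : ∀ n, ∀ᵐ y ∂ν, ZMod.castHom (hm n) (ZMod (m n)) (b (n + 1) y) = b n y)
    (hb3 : ∃ Y₁ : Set Y, MeasurableSet Y₁ ∧ ν Y₁ᶜ = 0 ∧
      ∀ y ∈ Y₁, ∀ y' ∈ Y₁, (∀ n, b n y = b n y') → y = y') :
    IsoModNull μ T ν S := by
  have hne : ∀ n, NeZero (m n) := fun n => ⟨(hpos n).ne'⟩
  have hma := measurable_code m hpos a ha
  have hmb := measurable_code m hpos b hb
  have hlaw := code_law_eq μ ν T hT S hS m hpos hm a ha ha1 ha2 b hb hb1 hb2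
  obtain ⟨X₂, hX₂, hX₂0, hX₂T, hXe, hXs⟩ :=
    exists_core_of_coloring μ T hT m hpos a ha ha1 ha3
  obtain ⟨Y₂, hY₂, hY₂0, hY₂S, hYe, hYs⟩ :=
    exists_core_of_coloring ν S hS m hpos b hb hb1 hb3
  have hainj : InjOn (code m a) X₂ := fun x hx x' hx' h =>
    hXs x hx x' hx' ((code_inj m hpos a a).1 h)
  have hbinj : InjOn (code m b) Y₂ := fun y hy y' hy' h =>
    hYs y hy y' hy' ((code_inj m hpos b b).1 h)
  have hIa : MeasurableSet (code m a '' X₂) := hX₂.image_of_measurable_injOn hma hainj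
  have hIb : MeasurableSet (code m b '' Y₂) := hY₂.image_of_measurable_injOn hmb hbinj
  let X₃ : Set X := X₂ ∩ code m a ⁻¹' (code m b '' Y₂)
  let Y₃ : Set Y := Y₂ ∩ code m b ⁻¹' (code m a '' X₂)
  have hX₃ : MeasurableSet X₃ := hX₂.inter (hma hIb)
  have hY₃ : MeasurableSet Y₃ := hY₂.inter (hmb hIa)
  have hX₃0 : μ X₃ᶜ = 0 := by
    rw [compl_inter]
    refine measure_union_null hX₂0 ?_
    rw [← preimage_compl, ← Measure.map_apply hma hIb.compl, hlaw, Measure.map_apply hmb hIb.compl]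
    refine measure_mono_null (fun y hy hy' => hy (mem_image_of_mem _ hy')) hY₂0
  have hY₃0 : ν Y₃ᶜ = 0 := by
    rw [compl_inter]
    refine measure_union_null hY₂0 ?_
    rw [← preimage_compl, ← Measure.map_apply hmb hIa.compl, ← hlaw,
      Measure.map_apply hma hIa.compl]
    refine measure_mono_null (fun y hy hy' => hy (mem_image_of_mem _ hy')) hX₂0
  have memX : ∀ {x}, x ∈ X₂ → T x ∈ X₂ := fun {x} h => by
    have : x ∈ T ⁻¹' X₂ := by rwa [hX₂T]
    exact this
  have memX' : ∀ {x}, T x ∈ X₂ → x ∈ X₂ := fun {x} h => by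
    rw [← hX₂T]; exact h
  have memY : ∀ {y}, y ∈ Y₂ → S y ∈ Y₂ := fun {y} h => by
    have : y ∈ S ⁻¹' Y₂ := by rwa [hY₂S]
    exact this
  have memY' : ∀ {y}, S y ∈ Y₂ → y ∈ Y₂ := fun {y} h => by
    rw [← hY₂S]; exact h
  have hTX₃ : T ⁻¹' X₃ = X₃ := by
    ext x
    constructor
    · rintro ⟨h1, y', hy', he⟩
      have hx := memX' h1
      refine ⟨hx, S.symm y', memY' (by rwa [S.apply_symm_apply]), ?_⟩
      have hy : S.symm y' ∈ Y₂ := memY' (by rwa [S.apply_symm_apply])
      refine (code_inj m hpos b a).2 fun n => ?_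
      have e1 := (code_inj m hpos b a).1 he n
      have e2 := hYe _ hy n
      rw [S.apply_symm_apply] at e2
      rw [e2, hXe x hx n] at e1
      exact add_right_cancel e1
    · rintro ⟨h1, y, hy, he⟩
      refine ⟨memX h1, S y, memY hy, ?_⟩
      refine (code_inj m hpos b a).2 fun n => ?_
      rw [hYe y hy n, hXe x h1 n, (code_inj m hpos b a).1 he n]
  have hSY₃ : S ⁻¹' Y₃ = Y₃ := by
    ext y
    constructor
    · rintro ⟨h1, x', hx', he⟩
      have hy := memY' h1
      have hx : T.symm x' ∈ X₂ := memX' (by rwa [T.apply_symm_apply])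
      refine ⟨hy, T.symm x', hx, ?_⟩
      refine (code_inj m hpos a b).2 fun n => ?_
      have e1 := (code_inj m hpos a b).1 he n
      have e2 := hXe _ hx n
      rw [T.apply_symm_apply] at e2
      rw [e2, hYe y hy n] at e1
      exact add_right_cancel e1
    · rintro ⟨h1, x, hx, he⟩
      refine ⟨memY h1, T x, memX hx, ?_⟩
      refine (code_inj m hpos a b).2 fun n => ?_
      rw [hXe x hx n, hYe y h1 n, (code_inj m hpos a b).1 he n]
  -- the bijection
  have : StandardBorelSpace X₃ := hX₃.standardBorel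
  have : StandardBorelSpace Y₃ := hY₃.standardBorel
  let fa : X₃ → (ℕ → ℕ) := fun x => code m a x
  let fb : Y₃ → (ℕ → ℕ) := fun y => code m b y
  have hfa : MeasurableEmbedding fa := (hma.comp measurable_subtype_coe).measurableEmbedding
    (fun x x' h => Subtype.ext (hainj x.2.1 x'.2.1 h))
  have hfb : MeasurableEmbedding fb := (hmb.comp measurable_subtype_coe).measurableEmbedding
    (fun y y' h => Subtype.ext (hbinj y.2.1 y'.2.1 h))
  have hab : ∀ x : X₃, fa x ∈ range fb := by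
    intro x
    obtain ⟨y, hy, he⟩ := x.2.2
    exact ⟨⟨y, hy, ⟨x, x.2.1, he.symm⟩⟩, he⟩
  have hba : ∀ y : Y₃, fb y ∈ range fa := by
    intro y
    obtain ⟨x, hx, he⟩ := y.2.2
    exact ⟨⟨x, hx, ⟨y, y.2.1, he.symm⟩⟩, he⟩
  let ea := hfa.equivRange
  let eb := hfb.equivRange
  have hea : ∀ x, (ea x : ℕ → ℕ) = fa x := fun x => by
    simp only [ea, hfa.equivRange_apply]
  have heb : ∀ y, (eb y : ℕ → ℕ) = fb y := fun y => by
    simp only [eb, hfb.equivRange_apply]
  let F : X₃ ≃ᵐ Y₃ :=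
    { toFun := fun x => eb.symm ⟨fa x, hab x⟩
      invFun := fun y => ea.symm ⟨fb y, hba y⟩
      left_inv := by
        intro x
        have h1 : fb (eb.symm ⟨fa x, hab x⟩) = fa x := by
          rw [← heb, eb.apply_symm_apply]
        rw [MeasurableEquiv.symm_apply_eq]
        apply Subtype.ext
        rw [hea]
        exact h1
      right_inv := by
        intro y
        have h1 : fa (ea.symm ⟨fb y, hba y⟩) = fb y := by
          rw [← hea, ea.apply_symm_apply]
        rw [MeasurableEquiv.symm_apply_eq]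
        apply Subtype.ext
        rw [heb]
        exact h1
      measurable_toFun := eb.symm.measurable.comp (hfa.measurable.subtype_mk)
      measurable_invFun := ea.symm.measurable.comp (hfb.measurable.subtype_mk) }
  have hF : ∀ x, fb (F x) = fa x := by
    intro x
    change fb (eb.symm ⟨fa x, hab x⟩) = fa x
    rw [← heb, eb.apply_symm_apply]
  refine ⟨X₃, Y₃, hX₃, hY₃, hX₃0, hY₃0, hTX₃, hSY₃, F, ?_, ?_⟩
  · intro x hx
    refine hYs _ (F ⟨T x, hx⟩).2.1 _ (memY (F x).2.1) fun n => ?_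
    have e1 := (code_inj m hpos b a).1 (hF ⟨T x, hx⟩) n
    have e2 := (code_inj m hpos b a).1 (hF x) n
    rw [e1, hYe _ (F x).2.1 n, e2]
    exact hXe x x.2.1 n
  · have h1 : Measure.map fb (Measure.map F (μ.comap ((↑) : X₃ → X))) =
        Measure.map fb (ν.comap ((↑) : Y₃ → Y)) := by
      rw [Measure.map_map hfb.measurable F.measurable]
      have : fb ∘ F = code m a ∘ ((↑) : X₃ → X) := by
        ext1 x
        exact hF x
      have h2 : fb = code m b ∘ ((↑) : Y₃ → Y) := rfl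
      have hrX : μ.restrict X₃ = μ :=
        Measure.restrict_eq_self_of_ae_mem (s := X₃) (mem_ae_iff.2 hX₃0)
      have hrY : ν.restrict Y₃ = ν :=
        Measure.restrict_eq_self_of_ae_mem (s := Y₃) (mem_ae_iff.2 hY₃0)
      rw [this, h2, ← Measure.map_map hma measurable_subtype_coe,
        ← Measure.map_map hmb measurable_subtype_coe,
        (MeasurableEmbedding.subtype_coe hX₃).map_comap,
        (MeasurableEmbedding.subtype_coe hY₃).map_comap, Subtype.range_coe, Subtype.range_coe,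
        hrX, hrY, hlaw]
    rw [← hfb.comap_map (Measure.map F (μ.comap ((↑) : X₃ → X))), h1, hfb.comap_map]

end Vale.Agent.P109
end
end

section

section

open MeasureTheory Set Filter Topology
open scoped symmDiff

namespace Vale.Agent.P109

section
variable {X : Type*} [MeasurableSpace X] {μ : Measure X} [IsProbabilityMeasure μ]
  {T : X ≃ᵐ X}

/-- a measurable map to a finite set intertwining an ergodic `T` with a permutation is carried by
one cycle -/
theorem exists_cycle (hE : Ergodic T μ) {W : Type*} [Finite W] (σ : W → W)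
    (hσ : Function.Injective σ) (w : X → W) (hw : ∀ i, MeasurableSet (w ⁻¹' {i}))
    (hw1 : ∀ᵐ x ∂μ, w (T x) = σ (w x)) :
    ∃ (w₀ : W) (K : ℕ) (c : X → ZMod K),
      0 < K ∧ σ^[K] w₀ = w₀ ∧ (∀ i, MeasurableSet (c ⁻¹' {i})) ∧
      (∀ᵐ x ∂μ, c (T x) = c x + 1) ∧ (∀ᵐ x ∂μ, w x = σ^[(c x).val] w₀) := by
  classical
  have : Fintype W := Fintype.ofFinite W
  -- a value of positive measure
  obtain ⟨w₀, hw₀⟩ : ∃ w₀, μ (w ⁻¹' {w₀}) ≠ 0 := by
    by_contra hcon
    push Not at hcon
    have h1 : (univ : Set X) = ⋃ i : W, w ⁻¹' {i} := by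
      ext x; simp only [mem_univ, mem_iUnion, mem_preimage, mem_singleton_iff, exists_eq']
    have h2 : μ (univ : Set X) = 0 := by
      rw [h1]
      exact (measure_iUnion_null_iff).2 hcon
    simp at h2
  set k := Function.minimalPeriod σ w₀ with hk
  have hper : w₀ ∈ Function.periodicPts σ := by
    exact hσ.mem_periodicPts w₀
  have hkpos : 0 < k := Function.minimalPeriod_pos_of_mem_periodicPts hper
  have hne : NeZero k := ⟨hkpos.ne'⟩
  have hmeas : ∀ A : Set W, MeasurableSet (w ⁻¹' A) := by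
    intro A
    have : w ⁻¹' A = ⋃ i ∈ A, w ⁻¹' {i} := by
      ext x; simp only [mem_preimage, biUnion_preimage_singleton]
    rw [this]
    exact MeasurableSet.biUnion (Set.to_countable A) fun i _ => hw i
  let O : Set X := w ⁻¹' {v | ∃ j : ℕ, v = σ^[j] w₀}
  have hO : ∀ᵐ x ∂μ, x ∈ O := by
    have h1 : O ≤ᵐ[μ] T ⁻¹' O := by
      filter_upwards [hw1] with x hx hxO
      obtain ⟨j, hj⟩ := hxO
      refine ⟨j + 1, ?_⟩
      rw [hx, hj, Function.iterate_succ_apply']
    rcases hE.ae_empty_or_univ_of_ae_le_preimage (s := O) (hmeas _).nullMeasurableSet h1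
      with h | h
    · exfalso
      apply hw₀
      refine measure_mono_null (t := O) ?_ (ae_eq_empty.1 h)
      intro x hx
      exact ⟨0, hx⟩
    · exact eventuallyEq_univ.1 h
  let c : X → ZMod k := fun x => if h : ∃ j : ℕ, w x = σ^[j] w₀ then (h.choose : ZMod k) else 0
  have hiter : ∀ i j : ℕ, σ^[i] w₀ = σ^[j] w₀ → (i : ZMod k) = j := by
    intro i j hij
    rw [← Function.iterate_mod_minimalPeriod_eq (n := i),
      ← Function.iterate_mod_minimalPeriod_eq (n := j)] at hij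
    rw [ZMod.natCast_eq_natCast_iff']
    exact (Function.iterate_eq_iterate_iff_of_lt_minimalPeriod (Nat.mod_lt _ hkpos)
      (Nat.mod_lt _ hkpos)).1 hij
  have hc : ∀ x (j : ℕ), w x = σ^[j] w₀ → c x = j := by
    intro x j hj
    have h : ∃ j : ℕ, w x = σ^[j] w₀ := ⟨j, hj⟩
    simp only [c, dif_pos h]
    exact hiter _ _ (h.choose_spec.symm.trans hj)
  refine ⟨w₀, k, c, hkpos, Function.iterate_minimalPeriod, ?_, ?_, ?_⟩
  · intro i
    let g : W → ZMod k := fun v => if h : ∃ j : ℕ, v = σ^[j] w₀ then (h.choose : ZMod k) else 0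
    have : c = g ∘ w := rfl
    rw [this, preimage_comp]
    exact hmeas _
  · filter_upwards [hw1, hO] with x hx hxO
    obtain ⟨j, hj⟩ := hxO
    have h2 : w (T x) = σ^[j + 1] w₀ := by
      rw [hx, hj, Function.iterate_succ_apply']
    rw [hc x j hj, hc (T x) (j + 1) h2]
    push_cast
    rfl
  · filter_upwards [hO] with x hxO
    obtain ⟨j, hj⟩ := hxO
    rw [hc x j hj, ZMod.val_natCast, Function.iterate_mod_minimalPeriod_eq]
    exact hj

/-- refine a colouring so that it sees one more periodic set -/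
theorem exists_refine (hE : Ergodic T μ) (k : ℕ) (hk : 0 < k) (a : X → ZMod k)
    (ha : ∀ i, MeasurableSet (a ⁻¹' {i})) (ha1 : ∀ᵐ x ∂μ, a (T x) = a x + 1)
    (n : ℕ) (hn : 0 < n) (B : Set X) (hB : MeasurableSet B) (hBn : T^[n] ⁻¹' B =ᵐ[μ] B) :
    ∃ (k' : ℕ) (hd : k ∣ k') (a' : X → ZMod k'), 0 < k' ∧ (∀ i, MeasurableSet (a' ⁻¹' {i})) ∧
      (∀ᵐ x ∂μ, a' (T x) = a' x + 1) ∧ (∀ᵐ x ∂μ, ZMod.castHom hd (ZMod k) (a' x) = a x) ∧
      ∃ J : Set (ZMod k'), ∀ᵐ x ∂μ, (x ∈ B ↔ a' x ∈ J) := by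
  classical
  have : NeZero k := ⟨hk.ne'⟩
  have : NeZero n := ⟨hn.ne'⟩
  let σ : ZMod k × (ZMod n → Bool) → ZMod k × (ZMod n → Bool) :=
    fun v => (v.1 + 1, fun j => v.2 (j + 1))
  have hσ : Function.Injective σ := by
    rintro ⟨i, f⟩ ⟨i', f'⟩ h
    simp only [σ, Prod.mk.injEq, add_left_inj] at h
    refine Prod.ext h.1 ?_
    ext j
    have := congrFun h.2 (j - 1)
    simpa using this
  have hσ1 : ∀ (j : ℕ) v, (σ^[j] v).1 = v.1 + j := by
    intro j
    induction j with
    | zero => intro v; simp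
    | succ j ih =>
      intro v
      rw [Function.iterate_succ_apply', Nat.cast_succ, ← add_assoc, ← ih]
  let w : X → ZMod k × (ZMod n → Bool) := fun x => (a x, fun j => decide (T^[j.val] x ∈ B))
  have hw : ∀ i, MeasurableSet (w ⁻¹' {i}) := by
    rintro ⟨i, f⟩
    have : w ⁻¹' {(i, f)} = a ⁻¹' {i} ∩ ⋂ j : ZMod n, {x | decide (T^[j.val] x ∈ B) = f j} := by
      ext x
      simp only [w, mem_preimage, mem_singleton_iff, Prod.mk.injEq, mem_inter_iff, mem_iInter,
        mem_ofPred_eq, funext_iff]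
    rw [this]
    refine (ha i).inter (MeasurableSet.iInter fun j => ?_)
    have hj : MeasurableSet (T^[j.val] ⁻¹' B) := (T.measurable.iterate _) hB
    cases h : f j with
    | true =>
      convert hj using 1
      ext x
      simp
    | false =>
      convert hj.compl using 1
      ext x
      simp
  have hw1 : ∀ᵐ x ∂μ, w (T x) = σ (w x) := by
    filter_upwards [ha1, hBn] with x hx hxB
    have hxB' : T^[n] x ∈ B ↔ x ∈ B := by
      have : (T^[n] ⁻¹' B) x = B x := hxB
      exact iff_of_eq this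
    simp only [w, σ, Prod.mk.injEq]
    refine ⟨hx, ?_⟩
    ext j
    rw [← Function.iterate_succ_apply]
    have hj : (j + 1).val = (j.val + 1) % n := by
      rw [ZMod.val_add, ZMod.val_one_eq_one_mod]
      simp [Nat.add_mod]
    have hlt : j.val < n := ZMod.val_lt j
    rcases Nat.lt_or_ge (j.val + 1) n with h | h
    · rw [hj, Nat.mod_eq_of_lt h]
    · have h' : j.val + 1 = n := le_antisymm hlt h
      rw [hj, h', Nat.mod_self, Nat.succ_eq_add_one, h', Bool.eq_iff_iff, decide_eq_true_iff,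
        decide_eq_true_iff]
      exact hxB'
  obtain ⟨w₀, K, c, hKpos, hK, hcm, hc1, hcw⟩ := exists_cycle hE σ hσ w hw hw1
  have : NeZero K := ⟨hKpos.ne'⟩
  have hd : k ∣ K := by
    have h2 := hσ1 K w₀
    rw [hK] at h2
    rw [← ZMod.natCast_eq_zero_iff]
    simpa only [add_eq_left] using h2.symm
  refine ⟨K, hd, fun x => c x + ((w₀.1.val : ℕ) : ZMod K), hKpos, ?_, ?_, ?_,
    {i | (σ^[(i - ((w₀.1.val : ℕ) : ZMod K)).val] w₀).2 0 = true}, ?_⟩
  · intro i
    convert hcm (i - ((w₀.1.val : ℕ) : ZMod K)) using 1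
    ext x
    simp [eq_sub_iff_add_eq]
  · filter_upwards [hc1] with x hx
    rw [hx]
    ring
  · filter_upwards [hcw] with x hx
    have h1 : (w x).1 = w₀.1 + ((c x).val : ℕ) := by rw [hx, hσ1]
    have h2 : ZMod.castHom hd (ZMod k) (c x) = ((c x).val : ℕ) := by
      conv_lhs => rw [← ZMod.natCast_zmod_val (c x)]
      rw [map_natCast]
    rw [map_add, map_natCast, h2, ZMod.natCast_zmod_val, add_comm]
    exact h1.symm
  · filter_upwards [hcw] with x hx
    rw [add_sub_cancel_right, ← hx]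
    simp [w]

variable (μ T) in
/-- an a.e. equivariant measurable map to a finite cyclic group -/
structure Col where
  k : ℕ
  pos : 0 < k
  a : X → ZMod k
  meas : ∀ i, MeasurableSet (a ⁻¹' {i})
  eqv : ∀ᵐ x ∂μ, a (T x) = a x + 1

/-- the trivial colouring -/
def Col.triv : Col μ T where
  k := 1
  pos := one_pos
  a := fun _ => 0
  meas := fun _ => MeasurableSet.const _
  eqv := Eventually.of_forall fun _ => Subsingleton.elim _ _

theorem exists_chain (hE : Ergodic T μ) (B : ℕ → Set X) (hB : ∀ j, MeasurableSet (B j))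
    (n : ℕ → ℕ) (hn : ∀ j, 0 < n j) (hBn : ∀ j, T^[n j] ⁻¹' B j =ᵐ[μ] B j) :
    ∃ (m : ℕ → ℕ) (_ : ∀ i, 0 < m i) (hm : ∀ i, m i ∣ m (i + 1)) (a : ∀ i, X → ZMod (m i)),
      (∀ i j, MeasurableSet (a i ⁻¹' {j})) ∧ (∀ i, ∀ᵐ x ∂μ, a i (T x) = a i x + 1) ∧
      (∀ i, ∀ᵐ x ∂μ, ZMod.castHom (hm i) (ZMod (m i)) (a (i + 1) x) = a i x) ∧
      ∀ j, ∃ J : Set (ZMod (m (j + 1))), ∀ᵐ x ∂μ, (x ∈ B j ↔ a (j + 1) x ∈ J) := by
  have step : ∀ (j : ℕ) (s : Col μ T), ∃ s' : Col μ T, ∃ hd : s.k ∣ s'.k,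
      (∀ᵐ x ∂μ, ZMod.castHom hd (ZMod s.k) (s'.a x) = s.a x) ∧
      ∃ J : Set (ZMod s'.k), ∀ᵐ x ∂μ, (x ∈ B j ↔ s'.a x ∈ J) := by
    intro j s
    obtain ⟨k', hd, a', hpos, hmeas, heqv, hcast, hJ⟩ :=
      exists_refine hE s.k s.pos s.a s.meas s.eqv (n j) (hn j) (B j) (hB j) (hBn j)
    exact ⟨⟨k', hpos, a', hmeas, heqv⟩, hd, hcast, hJ⟩
  choose f hd hcast hJ using step
  let s : ℕ → Col μ T := fun n => Nat.rec Col.triv f n
  exact ⟨fun i => (s i).k, fun i => (s i).pos, fun i => hd i (s i), fun i => (s i).a,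
    fun i => (s i).meas, fun i => (s i).eqv, fun i => hcast i (s i), fun j => hJ j (s j)⟩

variable (μ T) in
/-- Rational discrete spectrum: every measurable set is approximated by sets which are invariant
under some positive power of `T`. -/
def PeriodicSetsDense : Prop :=
  ∀ A : Set X, MeasurableSet A → ∀ ε : ENNReal, 0 < ε → ∃ n : ℕ, 0 < n ∧ ∃ B : Set X,
    MeasurableSet B ∧ T^[n] ⁻¹' B =ᵐ[μ] B ∧ μ (A ∆ B) < ε

theorem exists_separating_chain [StandardBorelSpace X] (hE : Ergodic T μ)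
    (hd : PeriodicSetsDense μ T) :
    ∃ (m : ℕ → ℕ) (_ : ∀ i, 0 < m i) (hm : ∀ i, m i ∣ m (i + 1)) (a : ∀ i, X → ZMod (m i)),
      (∀ i j, MeasurableSet (a i ⁻¹' {j})) ∧ (∀ i, ∀ᵐ x ∂μ, a i (T x) = a i x + 1) ∧
      (∀ i, ∀ᵐ x ∂μ, ZMod.castHom (hm i) (ZMod (m i)) (a (i + 1) x) = a i x) ∧
      ∃ X₁ : Set X, MeasurableSet X₁ ∧ μ X₁ᶜ = 0 ∧
        ∀ x ∈ X₁, ∀ x' ∈ X₁, (∀ n, a n x = a n x') → x = x' := by
  obtain ⟨C, hC, hsep⟩ := exists_seq_separating X MeasurableSet.empty (univ : Set X)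
  have hchoice : ∀ j : ℕ, ∃ n : ℕ, 0 < n ∧ ∃ B : Set X,
      MeasurableSet B ∧ T^[n] ⁻¹' B =ᵐ[μ] B ∧
        μ (C j.unpair.1 ∆ B) < (2⁻¹ : ENNReal) ^ j.unpair.2 := by
    intro j
    exact hd _ (hC _) _ (ENNReal.pow_pos (by simp) _)
  choose n hn B hB hBn hBμ using hchoice
  obtain ⟨m, hpos, hm, a, ha, ha1, ha2, hJ⟩ := exists_chain hE B hB n hn hBn
  refine ⟨m, hpos, hm, a, ha, ha1, ha2, ?_⟩
  choose J hJ using hJ
  -- Borel-Cantelli
  have hBC : ∀ i, ∀ᵐ x ∂μ, ∀ᶠ r in atTop, ¬ x ∈ C i ∆ B (Nat.pair i r) := by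
    intro i
    refine ae_eventually_notMem (s := fun r => C i ∆ B (Nat.pair i r)) ?_
    refine ne_top_of_le_ne_top (b := ∑' r : ℕ, (2⁻¹ : ENNReal) ^ r) ?_ ?_
    · rw [ENNReal.tsum_geometric]
      simp
    · refine ENNReal.tsum_le_tsum fun r => ?_
      have := hBμ (Nat.pair i r)
      rw [Nat.unpair_pair] at this
      exact this.le
  have hgood : ∀ᵐ x ∂μ, (∀ i, ∀ᶠ r in atTop, ¬ x ∈ C i ∆ B (Nat.pair i r)) ∧
      ∀ j, (x ∈ B j ↔ a (j + 1) x ∈ J j) := by
    rw [eventually_and]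
    exact ⟨ae_all_iff.2 hBC, ae_all_iff.2 hJ⟩
  refine ⟨(toMeasurable μ {x | ¬ ((∀ i, ∀ᶠ r in atTop, ¬ x ∈ C i ∆ B (Nat.pair i r)) ∧
      ∀ j, (x ∈ B j ↔ a (j + 1) x ∈ J j))})ᶜ, (measurableSet_toMeasurable _ _).compl, ?_, ?_⟩
  · rw [compl_compl, measure_toMeasurable]
    exact hgood
  · intro x hx x' hx' h
    have gx : (∀ i, ∀ᶠ r in atTop, ¬ x ∈ C i ∆ B (Nat.pair i r)) ∧
      ∀ j, (x ∈ B j ↔ a (j + 1) x ∈ J j) := by
      by_contra hcon
      exact hx (subset_toMeasurable _ _ hcon)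
    have gx' : (∀ i, ∀ᶠ r in atTop, ¬ x' ∈ C i ∆ B (Nat.pair i r)) ∧
      ∀ j, (x' ∈ B j ↔ a (j + 1) x' ∈ J j) := by
      by_contra hcon
      exact hx' (subset_toMeasurable _ _ hcon)
    refine hsep x (mem_univ _) x' (mem_univ _) fun i => ?_
    obtain ⟨r, h1, h2⟩ := ((gx.1 i).and (gx'.1 i)).exists
    have e1 : x ∈ C i ↔ x ∈ B (Nat.pair i r) := by
      simp only [Set.mem_symmDiff, not_or, not_and, not_not] at h1
      exact ⟨h1.1, h1.2⟩
    have e2 : x' ∈ C i ↔ x' ∈ B (Nat.pair i r) := by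
      simp only [Set.mem_symmDiff, not_or, not_and, not_not] at h2
      exact ⟨h2.1, h2.2⟩
    rw [e1, e2, gx.2, gx'.2, h]

/-- in a nonatomic space the orders of a separating chain of colourings tend to infinity -/
theorem chain_tendsto (hna : ∀ x, μ {x} = 0) (hT : MeasurePreserving T μ μ) (m : ℕ → ℕ)
    (hpos : ∀ i, 0 < m i) (hm : ∀ i, m i ∣ m (i + 1)) (a : ∀ i, X → ZMod (m i))
    (ha : ∀ i j, MeasurableSet (a i ⁻¹' {j})) (ha1 : ∀ i, ∀ᵐ x ∂μ, a i (T x) = a i x + 1)
    (ha2 : ∀ i, ∀ᵐ x ∂μ, ZMod.castHom (hm i) (ZMod (m i)) (a (i + 1) x) = a i x)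
    (X₁ : Set X) (hX₁ : MeasurableSet X₁) (hX₁0 : μ X₁ᶜ = 0)
    (hsep : ∀ x ∈ X₁, ∀ x' ∈ X₁, (∀ n, a n x = a n x') → x = x') :
    Tendsto m atTop atTop := by
  have hmono : Monotone m := monotone_nat_of_le_succ fun n =>
    Nat.le_of_dvd (hpos _) (hm n)
  refine tendsto_atTop_atTop_of_monotone hmono fun b => ?_
  by_contra hcon
  push Not at hcon
  have hb : 0 < b := lt_of_le_of_lt (Nat.zero_le _) (hcon 0)
  -- the conull set where everything is fine
  let X₂ : Set X := X₁ ∩ (toMeasurable μ {x | ¬ ∀ i,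
    ZMod.castHom (hm i) (ZMod (m i)) (a (i + 1) x) = a i x})ᶜ
  have hX₂m : MeasurableSet X₂ := hX₁.inter (measurableSet_toMeasurable _ _).compl
  have hX₂0 : μ X₂ᶜ = 0 := by
    rw [compl_inter, compl_compl]
    refine measure_union_null hX₁0 ?_
    rw [measure_toMeasurable]
    exact ae_all_iff.2 ha2
  have hX₂c : ∀ x ∈ X₂, ∀ i, ZMod.castHom (hm i) (ZMod (m i)) (a (i + 1) x) = a i x := by
    intro x hx
    by_contra hcon
    exact hx.2 (subset_toMeasurable _ _ hcon)
  obtain ⟨x, hx⟩ : X₂.Nonempty := by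
    rw [nonempty_iff_ne_empty]
    intro he
    rw [he, compl_empty, measure_univ] at hX₂0
    exact one_ne_zero hX₂0
  let D : ℕ → Set X := fun n => X₂ ∩ a n ⁻¹' {a n x}
  have hDm : ∀ n, MeasurableSet (D n) := fun n => hX₂m.inter (ha n _)
  have hDanti : Antitone D := by
    refine antitone_nat_of_succ_le fun n => ?_
    rintro y ⟨hy, hya⟩
    refine ⟨hy, ?_⟩
    rw [mem_preimage, mem_singleton_iff] at hya ⊢
    rw [← hX₂c y hy n, hya, hX₂c x hx n]
  have hDμ : ∀ n, (b : ENNReal)⁻¹ ≤ μ (D n) := by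
    intro n
    have h1 : μ (D n) = μ (a n ⁻¹' {a n x}) := by
      refine measure_congr ?_
      have : ∀ᵐ y ∂μ, y ∈ X₂ := hX₂0
      filter_upwards [this] with y hy
      apply propext
      exact ⟨fun h => h.2, fun h => ⟨hy, h⟩⟩
    rw [h1, measure_color μ T hT (m n) (hpos n) (a n) (ha n) (ha1 n)]
    exact ENNReal.inv_le_inv.2 (by exact_mod_cast (hcon n).le)
  have hInter : ⋂ n, D n ⊆ {x} := by
    intro y hy
    rw [mem_iInter] at hy
    exact (hsep y (hy 0).1.1 x hx.1 fun n => (hy n).2)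
  have hlim := tendsto_measure_iInter_atTop (μ := μ) (fun n => (hDm n).nullMeasurableSet)
    hDanti ⟨0, measure_ne_top _ _⟩
  have h0 : μ (⋂ n, D n) = 0 := measure_mono_null hInter (hna x)
  rw [h0] at hlim
  have := ge_of_tendsto' hlim hDμ
  simp at this

end

end Vale.Agent.P109
end
end

section

section

open MeasureTheory Set Filter Topology
open scoped ContDiff

namespace Vale.Agent.P109

/-- the plane -/
abbrev R2 := ℝ × ℝ
/-- the circle R/Z -/
abbrev T1 := UnitAddCircle
/-- the 2-torus -/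
abbrev T2 := UnitAddCircle × UnitAddCircle

/-- projection of the plane onto the torus -/
def pr (z : R2) : T2 := ((z.1 : T1), (z.2 : T1))

/-- integer vectors in the plane -/
def iv (k : ℤ × ℤ) : R2 := ((k.1 : ℝ), (k.2 : ℝ))

/-- A lifted area preserving smooth diffeomorphism of the torus: a smooth bijection `F` of the
plane with smooth inverse normalising the integer translations, covering `f`. -/
structure LMap where
  F : R2 ≃ R2
  f : T2 ≃ T2
  smooth : ContDiff ℝ ∞ F
  smooth_symm : ContDiff ℝ ∞ F.symm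
  per : ∀ k : ℤ × ℤ, ∃ l : ℤ × ℤ, ∀ z, F (z + iv k) = F z + iv l
  per_symm : ∀ k : ℤ × ℤ, ∃ l : ℤ × ℤ, ∀ z, F.symm (z + iv k) = F.symm z + iv l
  pr_F : ∀ z, pr (F z) = f (pr z)
  mp : MeasurePreserving f volume volume

end Vale.Agent.P109
end
end

section

section

open MeasureTheory Set Filter Topology
open scoped ContDiff

namespace Vale.Agent.P109

theorem pr_surjective : Function.Surjective pr := by
  rintro ⟨x, y⟩
  obtain ⟨x, rfl⟩ := QuotientAddGroup.mk_surjective x
  obtain ⟨y, rfl⟩ := QuotientAddGroup.mk_surjective y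
  exact ⟨(x, y), rfl⟩

theorem pr_isOpenQuotientMap : IsOpenQuotientMap pr := by
  have h : IsOpenQuotientMap (fun x : ℝ => (x : T1)) := QuotientAddGroup.isOpenQuotientMap_mk
  exact h.prodMap h

theorem pr_continuous : Continuous pr := pr_isOpenQuotientMap.continuous

theorem coe_T1_eq_iff {x y : ℝ} : (x : T1) = (y : T1) ↔ ∃ k : ℤ, y = x + k := by
  rw [QuotientAddGroup.eq, AddSubgroup.mem_zmultiples_iff]
  constructor
  · rintro ⟨k, hk⟩
    refine ⟨k, ?_⟩
    simp only [zsmul_eq_mul, mul_one] at hk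
    linarith only [hk]
  · rintro ⟨k, hk⟩
    refine ⟨k, ?_⟩
    simp only [zsmul_eq_mul, mul_one]
    linarith

theorem pr_eq_iff {z z' : R2} : pr z = pr z' ↔ ∃ k : ℤ × ℤ, z' = z + iv k := by
  simp only [pr, Prod.mk.injEq, coe_T1_eq_iff]
  constructor
  · rintro ⟨⟨a, ha⟩, ⟨b, hb⟩⟩
    exact ⟨(a, b), by ext <;> simp [iv, ha, hb]⟩
  · rintro ⟨⟨a, b⟩, h⟩
    subst h
    exact ⟨⟨a, by simp [iv]⟩, ⟨b, by simp [iv]⟩⟩

theorem pr_add_iv (z : R2) (k : ℤ × ℤ) : pr (z + iv k) = pr z :=
  (pr_eq_iff.2 ⟨k, rfl⟩).symm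

theorem dist_pr_le (z z' : R2) : dist (pr z) (pr z') ≤ ‖z - z'‖ := by
  have h : ∀ x y : ℝ, dist (x : T1) (y : T1) ≤ ‖x - y‖ := by
    intro x y
    rw [dist_eq_norm, ← AddCircle.coe_sub, UnitAddCircle.norm_eq, Real.norm_eq_abs]
    simpa only [Int.cast_zero, sub_zero] using round_le (x - y) 0
  rw [Prod.dist_eq, Prod.norm_def]
  exact max_le_max (h _ _) (h _ _)

/-- descending a periodic bijection of the plane to the torus -/
theorem exists_descend (F : R2 ≃ R2)
    (per : ∀ k : ℤ × ℤ, ∃ l : ℤ × ℤ, ∀ z, F (z + iv k) = F z + iv l)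
    (per_symm : ∀ k : ℤ × ℤ, ∃ l : ℤ × ℤ, ∀ z, F.symm (z + iv k) = F.symm z + iv l) :
    ∃ f : T2 ≃ T2, ∀ z, pr (F z) = f (pr z) := by
  let s := Function.surjInv pr_surjective
  have hs : ∀ p, pr (s p) = p := Function.surjInv_eq pr_surjective
  have key : ∀ z, pr (F (s (pr z))) = pr (F z) := by
    intro z
    obtain ⟨k, hk⟩ := pr_eq_iff.1 (hs (pr z))
    obtain ⟨l, hl⟩ := per k
    have : F z = F (s (pr z)) + iv l := by
      conv_lhs => rw [hk]
      exact hl _
    rw [this, pr_add_iv]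
  have key' : ∀ z, pr (F.symm (s (pr z))) = pr (F.symm z) := by
    intro z
    obtain ⟨k, hk⟩ := pr_eq_iff.1 (hs (pr z))
    obtain ⟨l, hl⟩ := per_symm k
    have : F.symm z = F.symm (s (pr z)) + iv l := by
      conv_lhs => rw [hk]
      exact hl _
    rw [this, pr_add_iv]
  refine ⟨⟨fun p => pr (F (s p)), fun p => pr (F.symm (s p)), ?_, ?_⟩, ?_⟩
  · intro p
    simp only
    rw [key', F.symm_apply_apply, hs]
  · intro p
    simp only
    rw [key, F.apply_symm_apply, hs]
  · intro z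
    exact (key z).symm

namespace LMap

theorem ext_f {A B : LMap} (h : ∀ z, A.F z = B.F z) : ∀ p, A.f p = B.f p := by
  intro p
  obtain ⟨z, rfl⟩ := pr_surjective p
  rw [← A.pr_F, ← B.pr_F, h]

theorem pr_F_symm (A : LMap) (z : R2) : pr (A.F.symm z) = A.f.symm (pr z) := by
  rw [Equiv.eq_symm_apply, ← A.pr_F, A.F.apply_symm_apply]

theorem continuous_f (A : LMap) : Continuous A.f := by
  rw [pr_isOpenQuotientMap.isQuotientMap.continuous_iff]
  have : A.f ∘ pr = pr ∘ A.F := by
    ext1 z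
    exact (A.pr_F z).symm
  rw [this]
  exact pr_continuous.comp A.smooth.continuous

theorem continuous_f_symm (A : LMap) : Continuous A.f.symm := by
  rw [pr_isOpenQuotientMap.isQuotientMap.continuous_iff]
  have : A.f.symm ∘ pr = pr ∘ A.F.symm := by
    ext1 z
    exact (A.pr_F_symm z).symm
  rw [this]
  exact pr_continuous.comp A.smooth_symm.continuous

/-- the torus homeomorphism -/
def homeo (A : LMap) : T2 ≃ₜ T2 where
  toEquiv := A.f
  continuous_toFun := A.continuous_f
  continuous_invFun := A.continuous_f_symm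

theorem mp_symm (A : LMap) : MeasurePreserving A.f.symm volume volume :=
  MeasurePreserving.symm A.homeo.toMeasurableEquiv A.mp

/-- composition -/
def comp (A B : LMap) : LMap where
  F := B.F.trans A.F
  f := B.f.trans A.f
  smooth := A.smooth.comp B.smooth
  smooth_symm := B.smooth_symm.comp A.smooth_symm
  per := by
    intro k
    obtain ⟨l, hl⟩ := B.per k
    obtain ⟨m, hm⟩ := A.per l
    refine ⟨m, fun z => ?_⟩
    simp only [Equiv.trans_apply]
    rw [hl, hm]
  per_symm := by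
    intro k
    obtain ⟨l, hl⟩ := A.per_symm k
    obtain ⟨m, hm⟩ := B.per_symm l
    refine ⟨m, fun z => ?_⟩
    simp only [Equiv.symm_trans_apply]
    rw [hl, hm]
  pr_F := by
    intro z
    simp only [Equiv.trans_apply]
    rw [A.pr_F, B.pr_F]
  mp := A.mp.comp B.mp

/-- inverse -/
def inv (A : LMap) : LMap where
  F := A.F.symm
  f := A.f.symm
  smooth := A.smooth_symm
  smooth_symm := A.smooth
  per := A.per_symm
  per_symm := A.per
  pr_F := A.pr_F_symm
  mp := A.mp_symm

theorem comp_F (A B : LMap) (z : R2) : (A.comp B).F z = A.F (B.F z) := rfl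
theorem comp_f (A B : LMap) (p : T2) : (A.comp B).f p = A.f (B.f p) := rfl
theorem inv_F (A : LMap) (z : R2) : A.inv.F z = A.F.symm z := rfl
theorem inv_f (A : LMap) (p : T2) : A.inv.f p = A.f.symm p := rfl

/-- identity -/
def one : LMap where
  F := Equiv.refl _
  f := Equiv.refl _
  smooth := contDiff_id
  smooth_symm := contDiff_id
  per := fun k => ⟨k, fun _ => rfl⟩
  per_symm := fun k => ⟨k, fun _ => rfl⟩
  pr_F := fun _ => rfl
  mp := MeasurePreserving.id _

/-- translation by a vector -/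
noncomputable def trans (v : R2) : LMap where
  F := Equiv.addRight v
  f := Equiv.addRight (pr v)
  smooth := by
    change ContDiff ℝ ∞ (fun z : R2 => z + v)
    fun_prop
  smooth_symm := by
    change ContDiff ℝ ∞ (fun z : R2 => z + -v)
    fun_prop
  per := fun k => ⟨k, fun z => by simp only [Equiv.coe_addRight]; abel⟩
  per_symm := fun k => ⟨k, fun z => by
    simp only [Equiv.addRight_symm, Equiv.coe_addRight]; abel⟩
  pr_F := by
    intro z
    rfl
  mp := by
    change MeasurePreserving (fun p : T2 => p + pr v) volume volume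
    exact (measurePreserving_add_right (volume : Measure T1) (pr v).1).prod
      (measurePreserving_add_right (volume : Measure T1) (pr v).2)

/-- coordinate swap -/
def swap : LMap where
  F := Equiv.prodComm ℝ ℝ
  f := Equiv.prodComm _ _
  smooth := by
    change ContDiff ℝ ∞ (fun z : R2 => (z.2, z.1))
    fun_prop
  smooth_symm := by
    change ContDiff ℝ ∞ (fun z : R2 => (z.2, z.1))
    fun_prop
  per := fun k => ⟨(k.2, k.1), fun _ => rfl⟩
  per_symm := fun k => ⟨(k.2, k.1), fun _ => rfl⟩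
  pr_F := fun _ => rfl
  mp := Measure.measurePreserving_swap

/-- the plane shear as an equivalence -/
def shearEquiv (φ : ℝ → ℝ) : R2 ≃ R2 where
  toFun := fun z => (z.1 + φ z.2, z.2)
  invFun := fun z => (z.1 - φ z.2, z.2)
  left_inv := by intro z; simp
  right_inv := by intro z; simp

theorem shearEquiv_per (φ : ℝ → ℝ) (k : ℤ) (hk : ∀ y, φ (y + 1) = φ y + k) :
    ∀ j : ℤ × ℤ, ∃ l : ℤ × ℤ, ∀ z, shearEquiv φ (z + iv j) = shearEquiv φ z + iv l := by
  have hint : ∀ (n : ℤ) y, φ (y + n) = φ y + n * k := by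
    intro n
    induction n with
    | zero => intro y; simp
    | succ n ih =>
      intro y
      have := hk (y + n)
      push_cast at ih ⊢
      rw [← add_assoc, this, ih]; ring
    | pred n ih =>
      intro y
      have h1 := hk (y + ((-(n : ℤ) - 1 : ℤ) : ℝ))
      have h2 := ih y
      push_cast at h1 h2 ⊢
      have : y + (-(n:ℝ) - 1) + 1 = y + -(n:ℝ) := by ring
      rw [this, h2] at h1
      linarith only [h1]
  intro j
  refine ⟨(j.1 + j.2 * k, j.2), fun z => ?_⟩
  ext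
  · simp only [shearEquiv, Equiv.coe_fn_mk, iv, Prod.fst_add, Prod.snd_add]
    rw [hint]
    push_cast
    ring
  · simp [shearEquiv, iv]

theorem shearEquiv_symm (φ : ℝ → ℝ) : (shearEquiv φ).symm = shearEquiv (fun y => - φ y) := by
  ext z <;> simp only [shearEquiv, sub_eq_add_neg, Equiv.symm_mk, Equiv.coe_fn_mk, neg_neg]

theorem shearEquiv_per_symm (φ : ℝ → ℝ) (k : ℤ) (hk : ∀ y, φ (y + 1) = φ y + k) :
    ∀ j : ℤ × ℤ, ∃ l : ℤ × ℤ, ∀ z, (shearEquiv φ).symm (z + iv j)
      = (shearEquiv φ).symm z + iv l := by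
  rw [shearEquiv_symm]
  exact shearEquiv_per _ (-k) (fun y => by rw [hk]; push_cast; ring)

/-- horizontal shear `(x,y) ↦ (x + φ y, y)` -/
noncomputable def shear (φ : ℝ → ℝ) (hφ : ContDiff ℝ ∞ φ) (k : ℤ) (hk : ∀ y, φ (y + 1) = φ y + k) :
    LMap where
  F := shearEquiv φ
  f := Classical.choose (exists_descend (shearEquiv φ) (shearEquiv_per φ k hk)
    (shearEquiv_per_symm φ k hk))
  smooth := by
    change ContDiff ℝ ∞ (fun z : R2 => (z.1 + φ z.2, z.2))
    fun_prop
  smooth_symm := by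
    change ContDiff ℝ ∞ (fun z : R2 => (z.1 - φ z.2, z.2))
    fun_prop
  per := shearEquiv_per φ k hk
  per_symm := shearEquiv_per_symm φ k hk
  pr_F := Classical.choose_spec (exists_descend (shearEquiv φ) (shearEquiv_per φ k hk)
    (shearEquiv_per_symm φ k hk))
  mp := by
    set f := Classical.choose (exists_descend (shearEquiv φ) (shearEquiv_per φ k hk)
      (shearEquiv_per_symm φ k hk)) with hf
    have hspec : ∀ z, pr (shearEquiv φ z) = f (pr z) :=
      Classical.choose_spec (exists_descend (shearEquiv φ) (shearEquiv_per φ k hk)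
        (shearEquiv_per_symm φ k hk))
    have hper : Function.Periodic (fun y : ℝ => ((φ y : ℝ) : T1)) 1 := by
      intro y
      simp only [hk]
      exact (coe_T1_eq_iff.2 ⟨k, rfl⟩).symm
    let φb : T1 → T1 := hper.lift
    have hφb : ∀ y : ℝ, φb (y : T1) = ((φ y : ℝ) : T1) := fun y => hper.lift_coe y
    have hφc : Continuous φb := by
      have hq : IsOpenQuotientMap (fun x : ℝ => (x : T1)) := QuotientAddGroup.isOpenQuotientMap_mk
      rw [hq.isQuotientMap.continuous_iff]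
      exact hq.continuous.comp hφ.continuous
    have hfe : ∀ p : T2, f p = (p.1 + φb p.2, p.2) := by
      intro p
      obtain ⟨z, rfl⟩ := pr_surjective p
      rw [← hspec]
      rfl
    have h1 : MeasurePreserving (fun p : T1 × T1 => (id p.1, p.2 + φb p.1))
        ((volume : Measure T1).prod volume) (volume.prod volume) := by
      refine MeasurePreserving.skew_product (MeasurePreserving.id _)
        (g := fun (a c : T1) => c + φb a) ?_ ?_
      · exact (measurable_snd.add (hφc.measurable.comp measurable_fst))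
      · exact Filter.Eventually.of_forall fun a => (measurePreserving_add_right _ _).map_eq
    have h2 := (Measure.measurePreserving_swap (μ := (volume : Measure T1))
      (ν := (volume : Measure T1))).comp
      (h1.comp (Measure.measurePreserving_swap (μ := (volume : Measure T1))
        (ν := (volume : Measure T1))))
    have : (f : T2 → T2) = Prod.swap ∘ (fun p : T1 × T1 => (id p.1, p.2 + φb p.1)) ∘ Prod.swap := by
      ext1 p
      rw [hfe]
      rfl
    rw [this]
    exact h2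

theorem trans_F (v z : R2) : (trans v).F z = z + v := rfl
theorem trans_F_symm (v z : R2) : (trans v).F.symm z = z - v := by
  rw [Equiv.symm_apply_eq]; simp [trans_F]
theorem swap_F (z : R2) : swap.F z = (z.2, z.1) := rfl
theorem swap_F_symm (z : R2) : swap.F.symm z = (z.2, z.1) := rfl
theorem shear_F (φ : ℝ → ℝ) (hφ : ContDiff ℝ ∞ φ) (k : ℤ) (hk : ∀ y, φ (y + 1) = φ y + k) (z : R2) :
    (shear φ hφ k hk).F z = (z.1 + φ z.2, z.2) := rfl
theorem shear_F_symm (φ : ℝ → ℝ) (hφ : ContDiff ℝ ∞ φ) (k : ℤ) (hk : ∀ y, φ (y + 1) = φ y + k)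
    (z : R2) : (shear φ hφ k hk).F.symm z = (z.1 - φ z.2, z.2) := rfl

end LMap

end Vale.Agent.P109
end
end

section

section

open MeasureTheory Set Filter Topology
open scoped ContDiff

namespace Vale.Agent.P109

/-- Smooth staircase: equals the floor when the fractional part is at most `1 - ε`,
rises smoothly on `(1-ε, 1-ε/2)` and equals floor + 1 afterwards. -/
noncomputable def stair (ε s : ℝ) : ℝ :=
  ⌊s⌋ + Real.smoothTransition ((Int.fract s - (1 - ε)) * (2 / ε))

theorem stair_eq_floor {ε s : ℝ} (hε : 0 < ε) (h : Int.fract s ≤ 1 - ε) :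
    stair ε s = ⌊s⌋ := by
  unfold stair
  rw [Real.smoothTransition.zero_of_nonpos, add_zero]
  have h1 : Int.fract s - (1 - ε) ≤ 0 := by linarith only [h]
  have h2 : 0 ≤ 2 / ε := by positivity
  exact mul_nonpos_of_nonpos_of_nonneg h1 h2

theorem stair_add_int (ε s : ℝ) (k : ℤ) : stair ε (s + k) = stair ε s + k := by
  unfold stair
  rw [Int.floor_add_intCast, Int.fract_add_intCast]
  push_cast
  ring

theorem stair_contDiff {ε : ℝ} (h0 : 0 < ε) (h1 : ε < 1) : ContDiff ℝ ∞ (stair ε) := by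
  rw [contDiff_iff_contDiffAt]
  intro s
  by_cases hs : Int.fract s = 0
  · -- near an integer the function is constant
    have hs' : s = ⌊s⌋ := by
      have := Int.self_sub_floor s
      linarith only [hs, this]
    have key : stair ε =ᶠ[𝓝 s] fun _ => (⌊s⌋ : ℝ) := by
      have hopen : Ioo (s - ε / 2) (s + (1 - ε)) ∈ 𝓝 s :=
        Ioo_mem_nhds (by linarith only [h0]) (by linarith)
      filter_upwards [hopen] with t ht
      obtain ⟨ht1, ht2⟩ := ht
      rcases le_or_gt s t with hst | hst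
      · have hfl : ⌊t⌋ = ⌊s⌋ := by
          rw [Int.floor_eq_iff]
          constructor
          · rw [← hs']; exact hst
          · rw [← hs']; linarith
        rw [stair_eq_floor h0, hfl]
        rw [← Int.self_sub_floor, hfl, ← hs']
        linarith
      · have hfl : ⌊t⌋ = ⌊s⌋ - 1 := by
          rw [Int.floor_eq_iff]
          push_cast
          constructor
          · rw [← hs']; linarith only [h1, ht1]
          · rw [← hs']; linarith
        unfold stair
        rw [Real.smoothTransition.one_of_one_le, hfl]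
        · push_cast; ring
        · rw [← Int.self_sub_floor, hfl]
          push_cast
          rw [← hs']
          have : 1 = (ε / 2) * (2 / ε) := by field_simp
          rw [this]
          apply mul_le_mul_of_nonneg_right _ (by positivity)
          linarith only [ht1]
    exact contDiffAt_const.congr_of_eventuallyEq key
  · have hpos : 0 < Int.fract s := lt_of_le_of_ne (Int.fract_nonneg s) (Ne.symm hs)
    have hlt : Int.fract s < 1 := Int.fract_lt_one s
    have key : stair ε =ᶠ[𝓝 s] fun t => (⌊s⌋ : ℝ) +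
        Real.smoothTransition ((t - ⌊s⌋ - (1 - ε)) * (2 / ε)) := by
      have hopen : Ioo (⌊s⌋ : ℝ) (⌊s⌋ + 1) ∈ 𝓝 s := by
        apply Ioo_mem_nhds
        · have := Int.self_sub_floor s; linarith
        · exact Int.lt_floor_add_one s
      filter_upwards [hopen] with t ht
      have hfl : ⌊t⌋ = ⌊s⌋ := by
        rw [Int.floor_eq_iff]
        exact ⟨ht.1.le, ht.2⟩
      unfold stair
      rw [← Int.self_sub_floor, hfl]
    refine ContDiffAt.congr_of_eventuallyEq ?_ key
    apply ContDiffAt.add contDiffAt_const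
    apply Real.smoothTransition.contDiffAt.comp
    fun_prop

end Vale.Agent.P109
end
end

section

section

open MeasureTheory Set Filter Topology
open scoped ContDiff

namespace Vale.Agent.P109

/-- parameters of the elementary map `h` -/
structure Par where
  Q : ℕ
  N : ℕ
  kap : ℤ
  lam : ℤ
  ε : ℝ
  hQ : 0 < Q
  hN : 0 < N
  h0 : 0 < ε
  h1 : ε < 1 / 2

namespace Par

variable (P : Par)

theorem Qpos : (0 : ℝ) < P.Q := by exact_mod_cast P.hQ
theorem Npos : (0 : ℝ) < P.N := by exact_mod_cast P.hN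

/-- horizontal staircase -/
noncomputable def phi (y : ℝ) : ℝ := (P.kap / P.Q) * stair P.ε (P.Q * P.N * y)

/-- vertical periodic staircase -/
noncomputable def psi (x : ℝ) : ℝ :=
  (P.lam / (P.Q * P.N)) * (stair P.ε (P.Q * x) - P.Q * stair (P.ε / P.Q) x)

theorem epsQ_pos : 0 < P.ε / P.Q := div_pos P.h0 P.Qpos

theorem epsQ_le : P.ε / P.Q ≤ P.ε := by
  apply div_le_self P.h0.le
  exact_mod_cast P.hQ

theorem phi_contDiff : ContDiff ℝ ∞ P.phi := by
  unfold phi
  apply ContDiff.mul contDiff_const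
  apply (stair_contDiff P.h0 (by linarith only [P.h1])).comp
  fun_prop

theorem psi_contDiff : ContDiff ℝ ∞ P.psi := by
  unfold psi
  apply ContDiff.mul contDiff_const
  apply ContDiff.sub
  · apply (stair_contDiff P.h0 (by linarith only [P.h1])).comp
    fun_prop
  · apply ContDiff.mul contDiff_const
    exact stair_contDiff P.epsQ_pos (lt_of_le_of_lt P.epsQ_le (by linarith only [P.h1]))

theorem phi_add (y : ℝ) (w : ℤ) : P.phi (y + w / (P.Q * P.N)) = P.phi y + P.kap * w / P.Q := by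
  unfold phi
  have hQ := P.Qpos
  have hN := P.Npos
  have : P.Q * P.N * (y + w / (P.Q * P.N)) = (P.Q * P.N * y + (w : ℤ) : ℝ) := by
    field_simp
  rw [this, stair_add_int]
  field_simp

theorem phi_add_one (y : ℝ) : P.phi (y + 1) = P.phi y + (P.kap * P.N : ℤ) := by
  have hQ := P.Qpos
  have hN := P.Npos
  have := P.phi_add y (P.Q * P.N)
  push_cast at this
  rw [div_self (by positivity)] at this
  rw [this]
  push_cast
  field_simp

theorem psi_add_int (x : ℝ) (r : ℤ) : P.psi (x + r) = P.psi x := by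
  unfold psi
  have : (P.Q * (x + r) : ℝ) = P.Q * x + ((P.Q * r : ℤ) : ℝ) := by push_cast; ring
  rw [this, stair_add_int, stair_add_int]
  push_cast
  ring

theorem psi_add_one (x : ℝ) : P.psi (x + 1) = P.psi x + (0 : ℤ) := by
  have := P.psi_add_int x 1
  push_cast at this ⊢
  rw [this, add_zero]

/-- the shear `A` -/
noncomputable def A : LMap := LMap.shear P.phi P.phi_contDiff (P.kap * P.N) P.phi_add_one

/-- the shear `B`, before swapping the coordinates -/
noncomputable def B : LMap := LMap.shear P.psi P.psi_contDiff 0 P.psi_add_one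

/-- the map `h = A B A⁻¹` -/
noncomputable def hmap : LMap :=
  P.A.comp (LMap.swap.comp (P.B.comp (LMap.swap.comp P.A.inv)))

theorem hmap_F (z : R2) : P.hmap.F z =
    (z.1 - P.phi z.2 + P.phi (z.2 + P.psi (z.1 - P.phi z.2)), z.2 + P.psi (z.1 - P.phi z.2)) :=
  rfl

/-- `h` commutes with the translation by `(u/Q, w/(QN))` if `u = kap * w mod Q` -/
theorem hmap_comm (u w : ℤ) (huw : (P.Q : ℤ) ∣ u - P.kap * w) (z : R2) :
    P.hmap.F (z + ((u / P.Q : ℝ), (w / (P.Q * P.N) : ℝ))) =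
      P.hmap.F z + ((u / P.Q : ℝ), (w / (P.Q * P.N) : ℝ)) := by
  obtain ⟨r, hr⟩ := huw
  have hQ := P.Qpos
  have hN := P.Npos
  have hr' : (u : ℝ) = P.kap * w + P.Q * r := by
    have : u = P.kap * w + P.Q * r := by linarith only [hr]
    exact_mod_cast this
  have h1 : (z + ((u / P.Q : ℝ), (w / (P.Q * P.N) : ℝ))).1 -
      P.phi (z + ((u / P.Q : ℝ), (w / (P.Q * P.N) : ℝ))).2 = (z.1 - P.phi z.2) + (r : ℤ) := by
    simp only [Prod.fst_add, Prod.snd_add]
    rw [P.phi_add, hr']
    field_simp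
    ring
  rw [hmap_F, hmap_F, h1, psi_add_int]
  simp only [Prod.fst_add, Prod.snd_add, Prod.mk_add_mk, Prod.mk.injEq]
  constructor
  · have : z.2 + (w : ℝ) / (P.Q * P.N) + P.psi (z.1 - P.phi z.2) =
        (z.2 + P.psi (z.1 - P.phi z.2)) + (w : ℝ) / (P.Q * P.N) := by ring
    rw [this, phi_add, hr']
    field_simp
    ring
  · ring

/-- floor of the quotient -/
theorem floor_div_aux (x : ℝ) (Q : ℕ) (hQ : 0 < Q) : ⌊x⌋ = ⌊(Q : ℝ) * x⌋ / (Q : ℤ) := by
  have h := Int.floor_div_natCast ((Q : ℝ) * x) Q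
  rw [← h]
  congr 1
  have : (0 : ℝ) < Q := by exact_mod_cast hQ
  field_simp

theorem fract_aux {x ε : ℝ} {Q : ℕ} (hQ : 0 < Q) (h : Int.fract ((Q : ℝ) * x) ≤ 1 - ε) :
    Int.fract x ≤ 1 - ε / Q := by
  have hQ' : (0 : ℝ) < Q := by exact_mod_cast hQ
  have h2 : ⌊(Q : ℝ) * x⌋ + 1 ≤ (Q : ℤ) * (⌊x⌋ + 1) := by
    rw [floor_div_aux x Q hQ]
    have hQz : (0 : ℤ) < Q := by exact_mod_cast hQ
    have h3 := Int.emod_add_mul_ediv ⌊(Q : ℝ) * x⌋ Q
    have h4 := Int.emod_lt_of_pos ⌊(Q : ℝ) * x⌋ hQz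
    linarith
  have h2' : ((⌊(Q : ℝ) * x⌋ : ℝ)) + 1 ≤ (Q : ℝ) * ((⌊x⌋ : ℝ) + 1) := by exact_mod_cast h2
  have h5 := Int.floor_add_fract ((Q : ℝ) * x)
  have h6 := Int.floor_add_fract x
  rw [le_sub_iff_add_le, ← sub_nonneg]
  have : 1 - (Int.fract x + ε / Q) = (Q * (1 - Int.fract x) - ε) / Q := by
    field_simp
    ring
  rw [this]
  apply div_nonneg _ hQ'.le
  have : (Q : ℝ) * Int.fract x = Q * x - Q * ⌊x⌋ := by
    rw [← Int.self_sub_floor]; ring
  linarith

/-- the values of `h` at good points -/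
theorem hmap_good (z : R2) (hx : Int.fract (P.Q * z.1) ≤ 1 - P.ε)
    (hy : Int.fract (P.Q * P.N * z.2) ≤ 1 - P.ε) (a' : ℤ)
    (ha' : a' = (⌊P.Q * z.1⌋ - P.kap * ⌊P.Q * P.N * z.2⌋) % (P.Q : ℤ)) :
    P.hmap.F z = (z.1 + P.kap * P.lam * a' / P.Q, z.2 + P.lam * a' / (P.Q * P.N)) := by
  have hQ := P.Qpos
  have hN := P.Npos
  have hQz : (0 : ℤ) < P.Q := by exact_mod_cast P.hQ
  set a : ℤ := ⌊P.Q * z.1⌋ with ha
  set b : ℤ := ⌊P.Q * P.N * z.2⌋ with hb
  have hphi : P.phi z.2 = P.kap * b / P.Q := by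
    unfold phi
    rw [stair_eq_floor P.h0 hy, ← hb]
    ring
  have hx1 : (P.Q : ℝ) * (z.1 - P.phi z.2) = P.Q * z.1 + ((-(P.kap * b) : ℤ) : ℝ) := by
    rw [hphi]
    push_cast
    field_simp
    ring
  have hfl : ⌊(P.Q : ℝ) * (z.1 - P.phi z.2)⌋ = a - P.kap * b := by
    rw [hx1, Int.floor_add_intCast, ← ha]
    ring
  have hfr : Int.fract ((P.Q : ℝ) * (z.1 - P.phi z.2)) ≤ 1 - P.ε := by
    rw [hx1, Int.fract_add_intCast]
    exact hx
  have hpsi : P.psi (z.1 - P.phi z.2) = P.lam * a' / (P.Q * P.N) := by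
    unfold psi
    rw [stair_eq_floor P.h0 hfr, stair_eq_floor P.epsQ_pos (fract_aux P.hQ hfr), hfl,
      floor_div_aux _ P.Q P.hQ, hfl, ha']
    have : ((a - P.kap * b) % (P.Q : ℤ) : ℤ) = (a - P.kap * b) - P.Q * ((a - P.kap * b) / P.Q) :=
      Int.emod_def _ _
    rw [this]
    push_cast
    ring
  rw [hmap_F, hpsi]
  have hphi2 : P.phi (z.2 + P.lam * a' / (P.Q * P.N)) = P.kap * b / P.Q + P.kap * (P.lam * a') / P.Q := by
    have := P.phi_add z.2 (P.lam * a')
    push_cast at this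
    rw [this, hphi]
  rw [hphi2, hphi]
  ext
  · simp only
    ring
  · rfl

end Par

end Vale.Agent.P109
end
end

section

section

open MeasureTheory Set Filter Topology

namespace Vale.Agent.P109

/-- the section of the circle with values in `[0,1)` -/
noncomputable def sec (x : T1) : ℝ := (AddCircle.equivIco 1 0 x : ℝ)

theorem sec_mem (x : T1) : sec x ∈ Ico (0 : ℝ) 1 := by
  have := (AddCircle.equivIco (1 : ℝ) 0 x).2
  simpa only [sec, mem_Ico, zero_add] using this

theorem coe_sec (x : T1) : ((sec x : ℝ) : T1) = x :=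
  (AddCircle.equivIco (1 : ℝ) 0).symm_apply_apply x

theorem sec_coe (x : ℝ) : sec (x : T1) = Int.fract x := by
  have := AddCircle.coe_equivIco_mk_apply (1 : ℝ) x
  simpa [sec] using this

theorem measurable_sec : Measurable sec :=
  measurable_subtype_coe.comp (AddCircle.measurableEquivIco (1 : ℝ) 0).measurable

theorem pr_sec (p : T2) : pr (sec p.1, sec p.2) = p := by
  unfold pr
  simp only [coe_sec]

/-- index of the strip of width `1/Q` -/
noncomputable def strip (Q : ℕ) (x : T1) : ZMod Q := ((⌊(Q : ℝ) * sec x⌋ : ℤ) : ZMod Q)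

/-- relative position inside the strip -/
noncomputable def fr (Q : ℕ) (x : T1) : ℝ := Int.fract ((Q : ℝ) * sec x)

theorem strip_coe (Q : ℕ) (x : ℝ) : strip Q (x : T1) = ((⌊(Q : ℝ) * x⌋ : ℤ) : ZMod Q) := by
  unfold strip
  rw [sec_coe]
  have : (Q : ℝ) * Int.fract x = Q * x - ((Q * ⌊x⌋ : ℤ) : ℝ) := by
    rw [← Int.self_sub_floor]; push_cast; ring
  rw [this, Int.floor_sub_intCast]
  push_cast
  simp

theorem fr_coe (Q : ℕ) (x : ℝ) : fr Q (x : T1) = Int.fract ((Q : ℝ) * x) := by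
  unfold fr
  rw [sec_coe]
  have : (Q : ℝ) * Int.fract x = Q * x - ((Q * ⌊x⌋ : ℤ) : ℝ) := by
    rw [← Int.self_sub_floor]; push_cast; ring
  rw [this, Int.fract_sub_intCast]

theorem measurable_fr (Q : ℕ) : Measurable (fr Q) := by
  unfold fr
  exact measurable_fract.comp (measurable_sec.const_mul _)

theorem measurableSet_strip (Q : ℕ) (i : ZMod Q) : MeasurableSet (strip Q ⁻¹' {i}) := by
  have h : Measurable fun x : T1 => ⌊(Q : ℝ) * sec x⌋ :=
    Int.measurable_floor.comp (measurable_sec.const_mul _)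
  have : strip Q ⁻¹' {i} = (fun x : T1 => ⌊(Q : ℝ) * sec x⌋) ⁻¹' {k : ℤ | (k : ZMod Q) = i} := by
    ext x; simp [strip]
  rw [this]
  exact h (MeasurableSet.of_discrete)

theorem strip_add {Q : ℕ} (hQ : 0 < Q) (x : T1) (r : ℤ) :
    strip Q (x + (((r : ℝ) / Q : ℝ) : T1)) = strip Q x + r := by
  have hQ' : (Q : ℝ) ≠ 0 := by positivity
  rw [← coe_sec x, ← AddCircle.coe_add, strip_coe, strip_coe]
  have : (Q : ℝ) * (sec x + r / Q) = Q * sec x + r := by field_simp
  rw [this, Int.floor_add_intCast]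
  push_cast
  rfl

theorem norm_coe_le (t : ℝ) : ‖(t : T1)‖ ≤ |t| := by
  rw [UnitAddCircle.norm_eq]
  simpa only [Int.cast_zero, sub_zero] using round_le t 0

theorem exists_small_lift (x : T1) : ∃ t : ℝ, (t : T1) = x ∧ |t| = ‖x‖ := by
  refine ⟨sec x - round (sec x), ?_, ?_⟩
  · rw [AddCircle.coe_sub, coe_sec]
    have : ((round (sec x) : ℝ) : T1) = 0 := by
      rw [AddCircle.coe_eq_zero_iff]
      exact ⟨round (sec x), by simp⟩
    rw [this, sub_zero]
  · conv_rhs => rw [← coe_sec x]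
    rw [UnitAddCircle.norm_eq]

/-- the good part of the circle at scale `1/Q` -/
def Gd (Q : ℕ) (ε : ℝ) : Set T1 := {x | ε ≤ fr Q x ∧ fr Q x ≤ 1 - ε}

theorem measurableSet_Gd (Q : ℕ) (ε : ℝ) : MeasurableSet (Gd Q ε) :=
  (measurableSet_le measurable_const (measurable_fr Q)).inter
    (measurableSet_le (measurable_fr Q) measurable_const)

theorem fr_eq_sec_nsmul (Q : ℕ) (x : T1) : fr Q x = sec ((Q : ℤ) • x) := by
  conv_rhs => rw [← coe_sec x]
  rw [← AddCircle.coe_zsmul, sec_coe]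
  simp [fr]

theorem volume_Gd_compl_le {Q : ℕ} (hQ : 0 < Q) (ε : ℝ) :
    volume (Gd Q ε)ᶜ ≤ ENNReal.ofReal (2 * ε) := by
  have hmp : MeasurePreserving (fun x : T1 => (Q : ℤ) • x) volume volume :=
    Measure.measurePreserving_zsmul volume (by exact_mod_cast hQ.ne')
  have hsub : (Gd Q ε)ᶜ ⊆ (fun x : T1 => (Q : ℤ) • x) ⁻¹' (Metric.closedBall 0 ε) := by
    intro x hx
    simp only [Gd, mem_compl_iff, mem_ofPred_eq, not_and_or, not_le] at hx
    simp only [mem_preimage, Metric.mem_closedBall, dist_zero_right]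
    rw [fr_eq_sec_nsmul] at hx
    set y := (Q : ℤ) • x with hy
    have hmem := sec_mem y
    rcases hx with h | h
    · rw [← coe_sec y]
      refine (norm_coe_le _).trans ?_
      rw [abs_of_nonneg hmem.1]
      exact h.le
    · have : y = ((sec y - 1 : ℝ) : T1) := by
        rw [AddCircle.coe_sub, coe_sec]
        have : ((1 : ℝ) : T1) = 0 := AddCircle.coe_period 1
        rw [this, sub_zero]
      rw [this]
      refine (norm_coe_le _).trans ?_
      rw [abs_of_nonpos (by linarith only [hmem.2])]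
      linarith only [h]
  calc volume (Gd Q ε)ᶜ ≤ volume ((fun x : T1 => (Q : ℤ) • x) ⁻¹' (Metric.closedBall 0 ε)) :=
        measure_mono hsub
    _ = volume (Metric.closedBall (0 : T1) ε) :=
        hmp.measure_preimage measurableSet_closedBall.nullMeasurableSet
    _ = ENNReal.ofReal (min 1 (2 * ε)) := AddCircle.volume_closedBall 1 ε
    _ ≤ ENNReal.ofReal (2 * ε) := ENNReal.ofReal_le_ofReal (min_le_right _ _)

/-- points of the same strip are at distance at most `1/Q` -/
theorem dist_le_of_strip_eq {Q : ℕ} (hQ : 0 < Q) {x x' : T1} (h : strip Q x = strip Q x') :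
    ⌊(Q : ℝ) * sec x⌋ = ⌊(Q : ℝ) * sec x'⌋ ∧ |sec x - sec x'| ≤ 1 / Q ∧ dist x x' ≤ 1 / Q := by
  have hQ' : (0 : ℝ) < Q := by positivity
  have hb : ∀ y : T1, 0 ≤ ⌊(Q : ℝ) * sec y⌋ ∧ ⌊(Q : ℝ) * sec y⌋ < Q := by
    intro y
    have := sec_mem y
    constructor
    · apply Int.floor_nonneg.mpr
      exact mul_nonneg hQ'.le this.1
    · rw [Int.floor_lt]
      push_cast
      nlinarith only [hQ', this.2]
  have heq : ⌊(Q : ℝ) * sec x⌋ = ⌊(Q : ℝ) * sec x'⌋ := by
    unfold strip at h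
    rw [ZMod.intCast_eq_intCast_iff] at h
    have h1 := hb x
    have h2 := hb x'
    have h3 : ⌊(Q : ℝ) * sec x⌋ % (Q : ℤ) = ⌊(Q : ℝ) * sec x⌋ := Int.emod_eq_of_lt h1.1 h1.2
    have h4 : ⌊(Q : ℝ) * sec x'⌋ % (Q : ℤ) = ⌊(Q : ℝ) * sec x'⌋ := Int.emod_eq_of_lt h2.1 h2.2
    rw [← h3, ← h4]
    exact h
  have habs : |sec x - sec x'| ≤ 1 / Q := by
    have h1 := Int.abs_sub_lt_one_of_floor_eq_floor heq
    rw [← mul_sub, abs_mul, abs_of_pos hQ'] at h1
    rw [le_div_iff₀ hQ']
    linarith only [h1]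
  refine ⟨heq, habs, ?_⟩
  rw [dist_eq_norm]
  have : x - x' = ((sec x - sec x' : ℝ) : T1) := by
    rw [AddCircle.coe_sub, coe_sec, coe_sec]
  rw [this]
  exact (norm_coe_le _).trans habs

/-- near points have the same strip, if one of them is good -/
theorem strip_eq_of_dist_lt {Q : ℕ} (hQ : 0 < Q) {ε : ℝ} {x x' : T1} (hx : x ∈ Gd Q ε)
    (hd : dist x x' < ε / Q) : strip Q x = strip Q x' := by
  have hQ' : (0 : ℝ) < Q := by positivity
  obtain ⟨t, ht, ht'⟩ := exists_small_lift (x' - x)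
  have hx' : x' = ((sec x + t : ℝ) : T1) := by
    rw [AddCircle.coe_add, coe_sec, ht]; abel
  rw [dist_comm, dist_eq_norm, ← ht', lt_div_iff₀ hQ'] at hd
  rw [hx']
  conv_lhs => rw [← coe_sec x]
  rw [strip_coe, strip_coe]
  congr 1
  obtain ⟨h1, h2⟩ := hx
  unfold fr at h1 h2
  rw [← Int.self_sub_floor] at h1 h2
  symm
  rw [Int.floor_eq_iff]
  have h3 := abs_lt.mp (show |(t * Q : ℝ)| < ε by rwa [abs_mul, abs_of_pos hQ'])
  constructor <;> nlinarith [h3.1, h3.2]

end Vale.Agent.P109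
end
end

section

section

open MeasureTheory Set Filter Topology

namespace Vale.Agent.P109

namespace Par

variable (P : Par)

/-- good points of the torus for `h` -/
def good : Set T2 := {p | fr P.Q p.1 ≤ 1 - P.ε ∧ fr (P.Q * P.N) p.2 ≤ 1 - P.ε}

/-- the integer `a'` attached to a point -/
noncomputable def aa (p : T2) : ℤ :=
  (⌊(P.Q : ℝ) * sec p.1⌋ - P.kap * ⌊(P.Q : ℝ) * P.N * sec p.2⌋) % (P.Q : ℤ)

theorem hmap_f_good {p : T2} (hp : p ∈ P.good) :
    P.hmap.f p = pr (sec p.1 + P.kap * P.lam * P.aa p / P.Q,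
      sec p.2 + P.lam * P.aa p / (P.Q * P.N)) := by
  obtain ⟨h1, h2⟩ := hp
  conv_lhs => rw [← pr_sec p]
  rw [← P.hmap.pr_F]
  congr 1
  apply P.hmap_good (sec p.1, sec p.2) h1 _ (P.aa p) rfl
  unfold fr at h2
  push_cast at h2
  exact h2

theorem strip_hmap {p : T2} (hp : p ∈ P.good) (hkl : (P.Q : ℤ) ∣ P.kap * P.lam + 1) :
    strip P.Q (P.hmap.f p).1 =
      P.kap * ZMod.castHom (Dvd.intro P.N rfl) (ZMod P.Q) (strip (P.Q * P.N) p.2) := by
  rw [P.hmap_f_good hp]
  unfold pr
  simp only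
  rw [strip_coe]
  have hQ := P.Qpos
  have hN := P.Npos
  have e1 : (P.Q : ℝ) * (sec p.1 + P.kap * P.lam * P.aa p / P.Q) =
      P.Q * sec p.1 + ((P.kap * P.lam * P.aa p : ℤ) : ℝ) := by
    push_cast
    field_simp
  rw [e1, Int.floor_add_intCast]
  unfold strip
  rw [map_intCast]
  push_cast
  have e2 : ((P.aa p : ℤ) : ZMod P.Q) = (⌊(P.Q : ℝ) * sec p.1⌋ : ZMod P.Q) -
      P.kap * (⌊(P.Q : ℝ) * P.N * sec p.2⌋ : ZMod P.Q) := by
    have : ((P.aa p : ℤ) : ZMod P.Q) =
        ((⌊(P.Q : ℝ) * sec p.1⌋ - P.kap * ⌊(P.Q : ℝ) * P.N * sec p.2⌋ : ℤ) : ZMod P.Q) := by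
      unfold aa
      rw [ZMod.intCast_mod]
    rw [this]
    push_cast
    rfl
  have e3 : (P.kap : ZMod P.Q) * P.lam = -1 := by
    have : ((P.kap * P.lam + 1 : ℤ) : ZMod P.Q) = 0 := by
      rw [ZMod.intCast_zmod_eq_zero_iff_dvd]
      exact hkl
    push_cast at this
    linear_combination this
  rw [e3, e2]
  ring

theorem dist_snd_hmap {p p' : T2} (hp : p ∈ P.good) (hp' : p' ∈ P.good)
    (hs : strip (P.Q * P.N) p.2 = strip (P.Q * P.N) p'.2) (hl0 : 0 ≤ P.lam) (hl1 : P.lam < P.Q) :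
    dist (P.hmap.f p).2 (P.hmap.f p').2 ≤ (P.Q : ℝ) ^ 2 / (P.Q * P.N) := by
  have hQ := P.Qpos
  have hN := P.Npos
  have hQ1 : (1 : ℝ) ≤ P.Q := by exact_mod_cast P.hQ
  have hQN : 0 < P.Q * P.N := Nat.mul_pos P.hQ P.hN
  obtain ⟨-, h2, -⟩ := dist_le_of_strip_eq hQN hs
  rw [P.hmap_f_good hp, P.hmap_f_good hp']
  unfold pr
  simp only
  rw [dist_eq_norm, ← AddCircle.coe_sub]
  refine (norm_coe_le _).trans ?_
  have haa : ∀ q : T2, 0 ≤ (P.aa q : ℝ) ∧ (P.aa q : ℝ) ≤ P.Q - 1 := by
    intro q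
    have hQz : (0 : ℤ) < P.Q := by exact_mod_cast P.hQ
    have h1 := Int.emod_nonneg (⌊(P.Q : ℝ) * sec q.1⌋ - P.kap * ⌊(P.Q : ℝ) * P.N * sec q.2⌋) hQz.ne'
    have h2 := Int.emod_lt_of_pos (⌊(P.Q : ℝ) * sec q.1⌋ - P.kap * ⌊(P.Q : ℝ) * P.N * sec q.2⌋) hQz
    constructor
    · have : 0 ≤ P.aa q := by unfold aa; omega
      exact_mod_cast this
    · have : P.aa q ≤ P.Q - 1 := by unfold aa; omega
      exact_mod_cast this
  have hl0' : (0 : ℝ) ≤ P.lam := by exact_mod_cast hl0
  have hl1' : (P.lam : ℝ) ≤ P.Q - 1 := by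
    have : P.lam ≤ P.Q - 1 := by omega
    exact_mod_cast this
  have e : (sec p.2 + P.lam * P.aa p / (P.Q * P.N)) - (sec p'.2 + P.lam * P.aa p' / (P.Q * P.N)) =
      (sec p.2 - sec p'.2) + P.lam * (P.aa p - P.aa p') / (P.Q * P.N) := by ring
  rw [e]
  have e1 : |(P.lam : ℝ) * ((P.aa p : ℝ) - P.aa p') / (P.Q * P.N)| ≤
      (P.Q - 1) * (P.Q - 1) / (P.Q * P.N) := by
    rw [abs_div, abs_mul, abs_of_nonneg hl0', abs_of_pos (show (0 : ℝ) < P.Q * P.N by (clear * - hQ hN; positivity))]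
    apply div_le_div_of_nonneg_right _ (by positivity)
    apply mul_le_mul hl1' _ (abs_nonneg _) (by linarith only [hQ1])
    rw [abs_le]
    constructor <;> linarith only [(haa p).1, (haa p').2, (haa p).2, (haa p').1]
  refine (abs_add_le _ _).trans ?_
  push_cast at h2
  calc |sec p.2 - sec p'.2| + |(P.lam : ℝ) * ((P.aa p : ℝ) - P.aa p') / (P.Q * P.N)|
      ≤ 1 / (P.Q * P.N) + (P.Q - 1) * (P.Q - 1) / (P.Q * P.N) := add_le_add h2 e1
    _ = (1 + (P.Q - 1) * (P.Q - 1)) / (P.Q * P.N) := by ring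
    _ ≤ (P.Q : ℝ) ^ 2 / (P.Q * P.N) := by
        apply div_le_div_of_nonneg_right _ (by (clear * - hQ hN; positivity))
        nlinarith only [hQ1]

theorem dist_hmap {p p' : T2} (hp : p ∈ P.good) (hp' : p' ∈ P.good)
    (hs : strip (P.Q * P.N) p.2 = strip (P.Q * P.N) p'.2)
    (hs1 : strip P.Q p.1 = strip P.Q p'.1) :
    dist (P.hmap.f p) (P.hmap.f p') = dist p p' := by
  have hQN : 0 < P.Q * P.N := Nat.mul_pos P.hQ P.hN
  obtain ⟨h2, -, -⟩ := dist_le_of_strip_eq hQN hs
  obtain ⟨h1, -, -⟩ := dist_le_of_strip_eq P.hQ hs1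
  push_cast at h2
  have haa : P.aa p = P.aa p' := by
    unfold aa
    rw [h1, h2]
  have key : P.hmap.f p - P.hmap.f p' = p - p' := by
    rw [P.hmap_f_good hp, P.hmap_f_good hp', haa]
    unfold pr
    simp only [AddCircle.coe_add, coe_sec]
    ext
    · simp only [Prod.mk_sub_mk, add_sub_add_right_eq_sub, Prod.fst_sub]
    · simp only [Prod.mk_sub_mk, add_sub_add_right_eq_sub, Prod.snd_sub]
  rw [dist_eq_norm, key, dist_eq_norm]

end Par

end Vale.Agent.P109
end
end

section

section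

namespace Vale.Agent.P109

theorem exists_kap_lam (Q : ℕ) (hQ : 0 < Q) (u w : ℤ) (hu : IsCoprime u (Q : ℤ))
    (hw : IsCoprime w (Q : ℤ)) :
    ∃ kap lam : ℤ, (Q : ℤ) ∣ u - kap * w ∧ (Q : ℤ) ∣ kap * lam + 1 ∧ 0 ≤ lam ∧ lam < Q := by
  obtain ⟨a, b, hab⟩ := hw
  have ha : IsCoprime a (Q : ℤ) := ⟨w, b, by linarith only [hab]⟩
  have hk : IsCoprime (u * a) (Q : ℤ) := IsCoprime.mul_left hu ha
  obtain ⟨a', b', hab'⟩ := hk
  have hQ' : (0 : ℤ) < Q := by exact_mod_cast hQ
  refine ⟨u * a, (-a') % Q, ?_, ?_, Int.emod_nonneg _ hQ'.ne', Int.emod_lt_of_pos _ hQ'⟩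
  · refine ⟨u * b, ?_⟩
    linear_combination (-u) * hab
  · rw [Int.emod_def]
    refine ⟨b' - u * a * (-a' / Q), ?_⟩
    linear_combination (-1 : ℤ) * hab'

theorem exists_small_unit (Q N : ℕ) (hQ : 0 < Q) (hN : 0 < N) (W : ℤ) (hW : IsCoprime W (Q : ℤ)) :
    ∃ c : ℕ, 1 ≤ c ∧ c ≤ Q ∧ IsCoprime (W * N + c) ((Q * N : ℕ) : ℤ) := by
  classical
  set s := Q.primeFactors \ N.primeFactors with hs
  set c := ∏ p ∈ s, p with hc
  have hcdvd : c ∣ Q := by
    have h1 : c ∣ ∏ p ∈ Q.primeFactors, p :=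
      Finset.prod_dvd_prod_of_subset _ _ _ Finset.sdiff_subset
    exact h1.trans (Nat.prod_primeFactors_dvd Q)
  have hcpos : 0 < c := Nat.pos_of_dvd_of_pos hcdvd hQ
  refine ⟨c, hcpos, Nat.le_of_dvd hQ hcdvd, ?_⟩
  rw [Int.isCoprime_iff_gcd_eq_one]
  by_contra hne
  set g := Int.gcd (W * N + c) ((Q * N : ℕ) : ℤ) with hg
  obtain ⟨p, hp, hpg⟩ := Nat.exists_prime_and_dvd hne
  have h1 : (p : ℤ) ∣ W * N + c := (Int.natCast_dvd_natCast.mpr hpg).trans (Int.gcd_dvd_left _ _)
  have h2 : (p : ℤ) ∣ ((Q * N : ℕ) : ℤ) :=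
    (Int.natCast_dvd_natCast.mpr hpg).trans (Int.gcd_dvd_right _ _)
  have h2' : p ∣ Q * N := by exact_mod_cast h2
  have hpc : ∀ q ∈ s, Nat.Prime q := fun q hq =>
    Nat.prime_of_mem_primeFactors (Finset.mem_sdiff.mp hq).1
  by_cases hpN : p ∣ N
  · -- then p does not divide c
    have h3 : (p : ℤ) ∣ W * N := Dvd.dvd.mul_left (Int.natCast_dvd_natCast.mpr hpN) _
    have h4 : (p : ℤ) ∣ c := (Int.dvd_add_right h3).mp h1
    have h5 : p ∣ c := by exact_mod_cast h4
    rw [hc, Prime.dvd_finset_prod_iff hp.prime] at h5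
    obtain ⟨q, hq, hpq⟩ := h5
    have : p = q := (Nat.prime_dvd_prime_iff_eq hp (hpc q hq)).mp hpq
    subst this
    have := (Finset.mem_sdiff.mp hq).2
    exact this (Nat.mem_primeFactors.mpr ⟨hp, hpN, hN.ne'⟩)
  · have hpQ : p ∣ Q := (Nat.Prime.dvd_mul hp).mp h2' |>.resolve_right hpN
    have hps : p ∈ s := by
      rw [hs, Finset.mem_sdiff]
      exact ⟨Nat.mem_primeFactors.mpr ⟨hp, hpQ, hQ.ne'⟩, fun h => hpN (Nat.dvd_of_mem_primeFactors h)⟩
    have h5 : p ∣ c := Finset.dvd_prod_of_mem _ hps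
    have h6 : (p : ℤ) ∣ W * N := (Int.dvd_add_left (Int.natCast_dvd_natCast.mpr h5)).mp h1
    have hpZ : Prime (p : ℤ) := Nat.prime_iff_prime_int.mp hp
    rcases hpZ.dvd_or_dvd h6 with h7 | h7
    · have h8 : (p : ℤ) ∣ (Q : ℤ) := by exact_mod_cast hpQ
      have := hW.isUnit_of_dvd' h7 h8
      exact hpZ.not_unit this
    · exact hpN (by exact_mod_cast h7)

end Vale.Agent.P109
end
end

section

section

open MeasureTheory Set Filter Topology
open scoped ContDiff

namespace Vale.Agent.P109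

theorem iteratedFDeriv_slice (Ψ : R2 × R2 → R2) (hΨ : ContDiff ℝ ∞ Ψ) (k : ℕ) (v z : R2) :
    iteratedFDeriv ℝ k (fun z => Ψ (v, z)) z =
      (iteratedFDeriv ℝ k Ψ (v, z)).compContinuousLinearMap
        (fun _ => ContinuousLinearMap.inr ℝ R2 R2) := by
  have h1 : (fun z => Ψ (v, z)) =
      (fun y => Ψ ((v, 0) + y)) ∘ (ContinuousLinearMap.inr ℝ R2 R2) := by
    ext1 z
    simp
  have h2 : ContDiff ℝ ∞ (fun y => Ψ ((v, 0) + y)) := hΨ.comp (by fun_prop)
  rw [h1, ContinuousLinearMap.iteratedFDeriv_comp_right _ h2 z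
    (by exact_mod_cast le_top (a := (k : ℕ∞))), iteratedFDeriv_comp_add_left]
  simp

theorem continuous_iteratedFDeriv_slice (Ψ : R2 × R2 → R2) (hΨ : ContDiff ℝ ∞ Ψ) (k : ℕ) :
    Continuous (fun q : R2 × R2 => iteratedFDeriv ℝ k (fun z => Ψ (q.1, z)) q.2) := by
  have h : (fun q : R2 × R2 => iteratedFDeriv ℝ k (fun z => Ψ (q.1, z)) q.2) =
      fun q => (iteratedFDeriv ℝ k Ψ q).compContinuousLinearMap
        (fun _ => ContinuousLinearMap.inr ℝ R2 R2) := by
    ext1 q
    rw [iteratedFDeriv_slice Ψ hΨ]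
  rw [h]
  have hc := hΨ.continuous_iteratedFDeriv (m := k) (by exact_mod_cast le_top (a := (k : ℕ∞)))
  exact (ContinuousMultilinearMap.compContinuousLinearMapL
    (fun _ => ContinuousLinearMap.inr ℝ R2 R2)).continuous.comp hc

/-- the conjugated translation commutes with integer translations -/
theorem conj_per (P : LMap) (v : R2) (z : R2) (k : ℤ × ℤ) :
    P.F (P.F.symm (z + iv k) + v) = P.F (P.F.symm z + v) + iv k := by
  obtain ⟨l, hl⟩ := P.per_symm k
  obtain ⟨m, hm⟩ := P.per l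
  have h0 : iv m = iv k := by
    have h1 := hl 0
    have h2 := hm (P.F.symm 0)
    rw [← h1, P.F.apply_symm_apply, P.F.apply_symm_apply] at h2
    simpa using h2.symm
  rw [hl, add_right_comm, hm, h0]

theorem exists_reduce (z : R2) : ∃ k : ℤ × ℤ, z + iv k ∈ Icc (0 : R2) 1 := by
  refine ⟨(-⌊z.1⌋, -⌊z.2⌋), ?_⟩
  have h1 := Int.floor_le z.1
  have h2 := (Int.lt_floor_add_one z.1).le
  have h3 := Int.floor_le z.2
  have h4 := (Int.lt_floor_add_one z.2).le
  constructor
  · constructor <;> simp [iv] <;> linarith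
  · constructor <;> simp [iv] <;> linarith

/-- conjugates of translations depend continuously on the translation vector, in `C^K`,
uniformly on the plane (by periodicity) -/
theorem close (P : LMap) (v₀ : R2) (K : ℕ) (ε : ℝ) (hε : 0 < ε) :
    ∃ δ > 0, ∀ v : R2, ‖v - v₀‖ < δ → ∀ k ≤ K, ∀ z : R2,
      ‖iteratedFDeriv ℝ k (fun z => P.F (P.F.symm z + v) - P.F (P.F.symm z + v₀)) z‖ ≤ ε := by
  let Ψ : R2 × R2 → R2 := fun q => P.F (P.F.symm q.2 + q.1) - P.F (P.F.symm q.2 + v₀)
  have hΨ : ContDiff ℝ ∞ Ψ := by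
    have h1 : ContDiff ℝ ∞ (fun q : R2 × R2 => P.F.symm q.2) := P.smooth_symm.comp contDiff_snd
    exact (P.smooth.comp (h1.add contDiff_fst)).sub (P.smooth.comp (h1.add contDiff_const))
  have hper : ∀ (v z : R2) (k : ℤ × ℤ), Ψ (v, z + iv k) = Ψ (v, z) := by
    intro v z k
    simp only [Ψ]
    rw [conj_per, conj_per]
    abel
  have hev : ∀ k : ℕ, ∀ᶠ v in 𝓝 v₀, ∀ z : R2,
      ‖iteratedFDeriv ℝ k (fun z => Ψ (v, z)) z‖ ≤ ε := by
    intro k
    have hK : IsCompact (Icc (0 : R2) 1) := isCompact_Icc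
    have h := hK.eventually_forall_of_forall_eventually (x₀ := v₀)
      (P := fun v z => ‖iteratedFDeriv ℝ k (fun z => Ψ (v, z)) z‖ < ε) (by
        intro y _
        have hc := (continuous_iteratedFDeriv_slice Ψ hΨ k).norm
        have h0 : ‖iteratedFDeriv ℝ k (fun z => Ψ (v₀, z)) y‖ < ε := by
          have : (fun z => Ψ (v₀, z)) = fun _ => 0 := by
            ext1 z
            simp only [sub_self, Ψ]
          rw [this]
          simpa using hε
        exact (hc.tendsto (v₀, y)).eventually_lt_const h0)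
    filter_upwards [h] with v hv z
    obtain ⟨m, hm⟩ := exists_reduce z
    have h1 : (fun z => Ψ (v, z)) = fun z => Ψ (v, z + iv m) := by
      ext1 z
      rw [hper]
    have h2 : iteratedFDeriv ℝ k (fun z => Ψ (v, z)) z =
        iteratedFDeriv ℝ k (fun z => Ψ (v, z)) (z + iv m) := by
      conv_lhs => rw [h1]
      rw [iteratedFDeriv_comp_add_right (f := fun z => Ψ (v, z))]
    rw [h2]
    exact (hv _ hm).le
  have hall : ∀ᶠ v in 𝓝 v₀, ∀ k ≤ K, ∀ z : R2,
      ‖iteratedFDeriv ℝ k (fun z => Ψ (v, z)) z‖ ≤ ε := by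
    have := (Finset.eventually_all (Finset.range (K + 1))).2 (fun k _ => hev k)
    filter_upwards [this] with v hv k hk
    exact hv k (Finset.mem_range.2 (Nat.lt_succ_of_le hk))
  obtain ⟨δ, hδ, hball⟩ := Metric.eventually_nhds_iff.1 hall
  refine ⟨δ, hδ, fun v hv k hk z => ?_⟩
  exact hball (by rwa [dist_eq_norm]) k hk z

end Vale.Agent.P109
end
end

section

section

open MeasureTheory Set

namespace Vale.Agent.P109

theorem HasSmoothModel.hasModel {d : ℕ} {X : Type*} [MeasurableSpace X] {μ : Measure X}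
    {T : X → X} (h : HasSmoothModel d μ T) : HasModel (EuclideanSpace ℝ (Fin d)) μ T := by
  obtain ⟨M, i1, i2, i3, i4, i5, i6, i7, i8, ν, i9, S, h1, h2, h3⟩ := h
  exact ⟨M, i1, i5, i7, ν, S, ⟨i2, i3, i4, i6⟩, i8, i9, h1, ⟨S, rfl⟩, h2, h3⟩

end Vale.Agent.P109
end
end

section

section

open MeasureTheory Set Filter Topology
open scoped ContDiff

namespace Vale.Agent.P109

/-- conjugate of the translation by `v` -/
noncomputable def conj (P : LMap) (v : R2) : LMap := P.comp ((LMap.trans v).comp P.inv)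

theorem conj_F (P : LMap) (v z : R2) : (conj P v).F z = P.F (P.F.symm z + v) := rfl

theorem conj_F_symm (P : LMap) (v z : R2) : (conj P v).F.symm z = P.F (P.F.symm z + -v) := rfl

theorem conj_f (P : LMap) (v : R2) (p : T2) : (conj P v).f p = P.f (P.f.symm p + pr v) := rfl

theorem conj_F_per (P : LMap) (v z : R2) (k : ℤ × ℤ) :
    (conj P v).F (z + iv k) = (conj P v).F z + iv k := by
  obtain ⟨l, hl⟩ := P.per_symm k
  obtain ⟨l', hl'⟩ := P.per l
  rw [conj_F, conj_F, hl]
  have h1 : P.F.symm z + iv l + v = (P.F.symm z + v) + iv l := by abel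
  rw [h1, hl']
  have h2 : P.F (P.F.symm (z + iv k)) = z + iv k := P.F.apply_symm_apply _
  rw [hl, hl', P.F.apply_symm_apply] at h2
  have h3 : iv l' = iv k := add_left_cancel h2
  rw [h3]

/-- error tolerances -/
noncomputable def eps (n : ℕ) : ℝ := (1 / 2 : ℝ) ^ (n + 2)

theorem eps_pos (n : ℕ) : 0 < eps n := by unfold eps; positivity

theorem eps_lt (n : ℕ) : eps n < 1 / 2 := by
  unfold eps
  calc (1 / 2 : ℝ) ^ (n + 2) ≤ (1 / 2 : ℝ) ^ 2 :=
        pow_le_pow_of_le_one (by norm_num) (by norm_num) (by omega)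
    _ < 1 / 2 := by norm_num

/-- a stage of the construction -/
structure Stage (m : ℕ → ℕ) where
  j : ℕ
  j' : ℕ
  hj : j < j'
  u : ℤ
  w : ℤ
  hu : IsCoprime u (m j : ℤ)
  hw : IsCoprime w (m j' : ℤ)
  H : LMap

variable {m : ℕ → ℕ}

/-- translation vector of a stage -/
noncomputable def Stage.v (s : Stage m) : R2 := ((s.u / m s.j : ℝ), (s.w / m s.j' : ℝ))

/-- the approximating diffeomorphism of a stage -/
noncomputable def Stage.S (s : Stage m) : LMap := conj s.H s.v

/-- relation between successive stages -/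
structure Step (n : ℕ) (s s' : Stage m) : Prop where
  hj : s'.j = s.j'
  hu : s'.u = s.w
  hH : ∃ P : Par, P.Q = m s.j ∧ P.Q * P.N = m s.j' ∧ P.ε = eps n ∧
    (P.Q : ℤ) ∣ s.u - P.kap * s.w ∧ (P.Q : ℤ) ∣ P.kap * P.lam + 1 ∧ 0 ≤ P.lam ∧ P.lam < P.Q ∧
    s'.H = s.H.comp (P.hmap.comp LMap.swap)
  modulus : ∀ p p' : T2, dist p p' ≤ 1 / (m s'.j' : ℝ) → dist (s'.H.f p) (s'.H.f p') ≤ (1/2 : ℝ)^n
  size1 : (m s.j' : ℝ)^2 / m s'.j' < eps n / m s.j
  size2 : (m s.j' : ℝ)^3 ≤ m s'.j'
  close1 : ∀ k ≤ n, ∀ z, ‖iteratedFDeriv ℝ k (fun z => s'.S.F z - s.S.F z) z‖ ≤ (1/2 : ℝ)^n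
  close2 : ∀ k ≤ n, ∀ z,
    ‖iteratedFDeriv ℝ k (fun z => s'.S.F.symm z - s.S.F.symm z) z‖ ≤ (1/2 : ℝ)^n

theorem dvd_of_le (hm : ∀ n, m n ∣ m (n + 1)) {i k : ℕ} (h : i ≤ k) : m i ∣ m k := by
  induction k, h using Nat.le_induction with
  | base => exact dvd_rfl
  | succ k _ ih => exact ih.trans (hm k)

theorem exists_step (hpos : ∀ n, 0 < m n) (hm : ∀ n, m n ∣ m (n + 1))
    (hlim : Tendsto m atTop atTop) (n : ℕ) (s : Stage m) : ∃ s' : Stage m, Step n s s' := by
  classical
  have hd : m s.j ∣ m s.j' := dvd_of_le hm s.hj.le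
  obtain ⟨N, hN⟩ := hd
  have hNpos : 0 < N := by
    rcases Nat.eq_zero_or_pos N with h | h
    · rw [h, mul_zero] at hN
      exact absurd hN (hpos _).ne'
    · exact h
  have hwQ : IsCoprime s.w (m s.j : ℤ) := by
    apply s.hw.of_isCoprime_of_dvd_right
    exact Int.natCast_dvd_natCast.mpr ⟨N, hN⟩
  obtain ⟨kap, lam, hk1, hk2, hl1, hl2⟩ := exists_kap_lam (m s.j) (hpos _) s.u s.w s.hu hwQ
  let P : Par := ⟨m s.j, N, kap, lam, eps n, hpos _, hNpos, eps_pos n, eps_lt n⟩
  set R : LMap := s.H.comp P.hmap with hR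
  set H' : LMap := s.H.comp (P.hmap.comp LMap.swap) with hH'
  obtain ⟨δ1, hδ1, hc1⟩ := close R s.v n ((1/2 : ℝ)^n) (by positivity)
  obtain ⟨δ2, hδ2, hc2⟩ := close R (-s.v) n ((1/2 : ℝ)^n) (by positivity)
  have huc : UniformContinuous H'.f :=
    CompactSpace.uniformContinuous_of_continuous H'.continuous_f
  obtain ⟨δ3, hδ3, hmod⟩ := Metric.uniformContinuous_iff.mp huc ((1/2 : ℝ)^n) (by positivity)
  -- choice of the next scale
  have hQpos : (0 : ℝ) < m s.j := by exact_mod_cast hpos _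
  have hlimR : Tendsto (fun k => (m k : ℝ)) atTop atTop :=
    tendsto_natCast_atTop_atTop.comp hlim
  obtain ⟨j'', hj'', hbig⟩ : ∃ j'', s.j' < j'' ∧
      ((m s.j : ℝ) / min δ1 δ2 + 1 / δ3 + (m s.j' : ℝ)^2 * m s.j / eps n + (m s.j' : ℝ)^3) <
        m j'' := by
    have h1 := hlimR.eventually_gt_atTop
      ((m s.j : ℝ) / min δ1 δ2 + 1 / δ3 + (m s.j' : ℝ)^2 * m s.j / eps n + (m s.j' : ℝ)^3)
    have h2 := eventually_gt_atTop s.j'
    obtain ⟨k, hk1, hk2⟩ := (h1.and h2).exists
    exact ⟨k, hk2, hk1⟩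
  have hQ'' : (0 : ℝ) < m j'' := by exact_mod_cast hpos _
  have he := eps_pos n
  have hmin : 0 < min δ1 δ2 := lt_min hδ1 hδ2
  have hQ'pos : (0 : ℝ) < m s.j' := by exact_mod_cast hpos _
  have t1 : 0 ≤ (m s.j : ℝ) / min δ1 δ2 := by (clear * - hQpos hδ1 hδ2; positivity)
  have t2 : 0 ≤ 1 / δ3 := by positivity
  have t3 : 0 ≤ (m s.j' : ℝ)^2 * m s.j / eps n := by (clear * - hQ'pos hQpos he; positivity)
  have t4 : 0 ≤ (m s.j' : ℝ)^3 := by (clear * - hQ'pos; positivity)
  have hb1 : (m s.j : ℝ) / m j'' < min δ1 δ2 := by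
    rw [div_lt_comm₀ hQ'' hmin]
    linarith only [hbig, t2, t3, t4]
  have hb2 : 1 / (m j'' : ℝ) < δ3 := by
    rw [div_lt_comm₀ hQ'' hδ3]
    linarith only [hbig, t1, t3, t4]
  have hb3 : (m s.j' : ℝ)^2 / m j'' < eps n / m s.j := by
    rw [div_lt_div_iff₀ hQ'' hQpos]
    have : (m s.j' : ℝ)^2 * m s.j / eps n < m j'' := by linarith only [hbig, t1, t2, t4]
    rw [div_lt_iff₀ he] at this
    linarith only [this]
  have hb4 : (m s.j' : ℝ)^3 ≤ m j'' := by linarith only [hbig, t1, t2, t3]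
  obtain ⟨N'', hN''⟩ := dvd_of_le hm (s.hj.le.trans hj''.le)
  have hN''pos : 0 < N'' := by
    rcases Nat.eq_zero_or_pos N'' with h | h
    · rw [h, mul_zero] at hN''
      exact absurd hN'' (hpos _).ne'
    · exact h
  obtain ⟨c, hc0, hcQ, hcop⟩ := exists_small_unit (m s.j) N'' (hpos _) hN''pos s.u s.hu
  let s' : Stage m := ⟨s.j', j'', hj'', s.w, s.u * N'' + c, s.hw, by rw [hN'']; exact hcop, H'⟩
  -- the two approximating maps in terms of `R`
  set v' : R2 := (((s.u * N'' + c : ℤ) : ℝ) / m j'', (s.w : ℝ) / m s.j') with hv'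
  have hvv : ‖v' - s.v‖ < min δ1 δ2 := by
    have e1 : v' - s.v = ((c : ℝ) / m j'', 0) := by
      rw [hv']
      unfold Stage.v
      ext
      · simp only [Prod.fst_sub]
        rw [hN'']
        push_cast
        have : (N'' : ℝ) ≠ 0 := by (clear * - hN''pos; positivity)
        field_simp
        ring
      · simp only [Prod.snd_sub]
        ring
    rw [e1, Prod.norm_mk, norm_zero, max_eq_left (norm_nonneg _), Real.norm_eq_abs,
      abs_of_nonneg (by (clear * - hc0 hQ''; positivity))]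
    refine lt_of_le_of_lt ?_ hb1
    apply div_le_div_of_nonneg_right _ hQ''.le
    exact_mod_cast hcQ
  have hcomm : ∀ z, P.hmap.F (z + s.v) = P.hmap.F z + s.v := by
    intro z
    have := P.hmap_comm s.u s.w hk1 z
    have e : s.v = ((s.u / P.Q : ℝ), (s.w / (P.Q * P.N) : ℝ)) := by
      unfold Stage.v
      have : (m s.j' : ℝ) = (m s.j : ℝ) * N := by rw [hN]; push_cast; ring
      rw [this]
    rw [e]
    exact this
  have hcomm' : ∀ z, P.hmap.F (z + -s.v) = P.hmap.F z + -s.v := by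
    intro z
    have := hcomm (z + -s.v)
    rw [neg_add_cancel_right] at this
    rw [this, add_neg_cancel_right]
  have hS : ∀ z, s.S.F z = R.F (R.F.symm z + s.v) := by
    intro z
    change s.H.F (s.H.F.symm z + s.v) = s.H.F (P.hmap.F (P.hmap.F.symm (s.H.F.symm z) + s.v))
    rw [hcomm, Equiv.apply_symm_apply]
  have hSs : ∀ z, s.S.F.symm z = R.F (R.F.symm z + -s.v) := by
    intro z
    change s.H.F (s.H.F.symm z + -s.v) = s.H.F (P.hmap.F (P.hmap.F.symm (s.H.F.symm z) + -s.v))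
    rw [hcomm', Equiv.apply_symm_apply]
  have hS' : ∀ z, s'.S.F z = R.F (R.F.symm z + v') := by
    intro z
    rfl
  have hSs' : ∀ z, s'.S.F.symm z = R.F (R.F.symm z + -v') := by
    intro z
    rfl
  refine ⟨s', ⟨rfl, rfl, ⟨P, rfl, hN.symm, rfl, hk1, hk2, hl1, hl2, rfl⟩, ?_, hb3, hb4, ?_, ?_⟩⟩
  · intro p p' hpp
    exact (hmod (lt_of_le_of_lt hpp hb2)).le
  · intro k hk z
    have e : (fun z => s'.S.F z - s.S.F z) =
        fun z => R.F (R.F.symm z + v') - R.F (R.F.symm z + s.v) := by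
      funext z
      rw [hS', hS]
    rw [e]
    exact hc1 v' (lt_of_lt_of_le hvv (min_le_left _ _)) k hk z
  · intro k hk z
    have e : (fun z => s'.S.F.symm z - s.S.F.symm z) =
        fun z => R.F (R.F.symm z + -v') - R.F (R.F.symm z + -s.v) := by
      funext z
      rw [hSs', hSs]
    rw [e]
    apply hc2 (-v') _ k hk z
    rw [← neg_sub_neg, neg_neg, neg_neg, norm_sub_rev] 
    exact lt_of_lt_of_le hvv (min_le_right _ _)

end Vale.Agent.P109
end
end

section

section

open MeasureTheory Set Filter Topology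
open scoped ContDiff

namespace Vale.Agent.P109

/-- a fast converging sequence of smooth maps has a smooth limit -/
theorem exists_smooth_limit (s : ℕ → R2 → R2) (hs : ∀ n, ContDiff ℝ ∞ (s n))
    (h1 : ∀ n, ∀ k ≤ n, ∀ z,
      ‖iteratedFDeriv ℝ k (fun z => s (n+1) z - s n z) z‖ ≤ (1/2 : ℝ)^n) :
    ∃ l : R2 → R2, ContDiff ℝ ∞ l ∧ ∀ n z, ‖s n z - l z‖ ≤ 2 * (1/2 : ℝ)^n := by
  let d : ℕ → R2 → R2 := fun n z => s (n+1) z - s n z
  have hd : ∀ n, ContDiff ℝ ∞ (d n) := fun n => (hs (n+1)).sub (hs n)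
  have hsum : ContDiff ℝ ∞ (fun z => ∑' n, d n z) := by
    refine contDiff_tsum_of_eventually (N := ⊤) (v := fun _ i => (1/2 : ℝ)^i) hd
      (fun k _ => summable_geometric_two) (fun k _ => ?_)
    rw [Nat.cofinite_eq_atTop]
    filter_upwards [eventually_ge_atTop k] with i hi z
    exact h1 i k hi z
  have hd0 : ∀ n z, ‖d n z‖ ≤ (1/2 : ℝ)^n := by
    intro n z
    have := h1 n 0 (Nat.zero_le _) z
    rwa [norm_iteratedFDeriv_zero] at this
  have htel : ∀ n z, s n z = s 0 z + ∑ i ∈ Finset.range n, d i z := by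
    intro n z
    rw [Finset.sum_range_sub (fun i => s i z)]
    abel
  have hsm : ∀ z, Summable (fun n => d n z) := fun z =>
    Summable.of_norm_bounded summable_geometric_two (fun n => hd0 n z)
  refine ⟨fun z => s 0 z + ∑' n, d n z, (hs 0).add hsum, fun n z => ?_⟩
  have hlim : Tendsto (fun n => s n z) atTop (𝓝 (s 0 z + ∑' n, d n z)) := by
    have := ((hsm z).hasSum.tendsto_sum_nat).const_add (s 0 z)
    refine this.congr (fun n => (htel n z).symm)
  have := dist_le_of_le_geometric_two_of_tendsto (C := 2) (f := fun n => s n z) (by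
    intro n
    rw [dist_comm, dist_eq_norm]
    have := hd0 n z
    simpa only [ne_eq, OfNat.ofNat_ne_zero, not_false_eq_true, div_self, one_div, ge_iff_le, inv_pow] using this) hlim n
  rw [← dist_eq_norm]
  refine this.trans (le_of_eq ?_)
  rw [one_div, inv_pow, div_eq_mul_inv]

/-- limit of a fast converging sequence of lifted diffeomorphisms -/
theorem exists_limit (S : ℕ → LMap)
    (hper : ∀ n z k, (S n).F (z + iv k) = (S n).F z + iv k)
    (h1 : ∀ n, ∀ k ≤ n, ∀ z,
      ‖iteratedFDeriv ℝ k (fun z => (S (n+1)).F z - (S n).F z) z‖ ≤ (1/2 : ℝ)^n)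
    (h2 : ∀ n, ∀ k ≤ n, ∀ z,
      ‖iteratedFDeriv ℝ k (fun z => (S (n+1)).F.symm z - (S n).F.symm z) z‖ ≤ (1/2 : ℝ)^n) :
    ∃ L : LMap, ∀ n p, dist ((S n).f p) (L.f p) ≤ 2 * (1/2 : ℝ)^n := by
  obtain ⟨l, hl, hle⟩ := exists_smooth_limit (fun n => (S n).F) (fun n => (S n).smooth) h1
  obtain ⟨l', hl', hle'⟩ := exists_smooth_limit (fun n => (S n).F.symm)
    (fun n => (S n).smooth_symm) h2
  have hε : Tendsto (fun n : ℕ => 2 * (1/2 : ℝ)^n) atTop (𝓝 0) := by
    have := (tendsto_pow_atTop_nhds_zero_of_lt_one (r := (1/2 : ℝ)) (by norm_num)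
      (by norm_num)).const_mul 2
    simpa only [one_div, inv_pow, mul_zero] using this
  have htend : ∀ z, Tendsto (fun n => (S n).F z) atTop (𝓝 (l z)) := by
    intro z
    rw [tendsto_iff_norm_sub_tendsto_zero]
    exact squeeze_zero (fun _ => norm_nonneg _) (fun n => hle n z) hε
  have htend' : ∀ z, Tendsto (fun n => (S n).F.symm z) atTop (𝓝 (l' z)) := by
    intro z
    rw [tendsto_iff_norm_sub_tendsto_zero]
    exact squeeze_zero (fun _ => norm_nonneg _) (fun n => hle' n z) hε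
  have hll' : ∀ z, l (l' z) = z := by
    intro z
    have ha : Tendsto (fun n => l ((S n).F.symm z)) atTop (𝓝 (l (l' z))) :=
      (hl.continuous.tendsto _).comp (htend' z)
    have hb : Tendsto (fun n => (S n).F ((S n).F.symm z) - l ((S n).F.symm z)) atTop (𝓝 0) := by
      rw [tendsto_zero_iff_norm_tendsto_zero]
      exact squeeze_zero (fun _ => norm_nonneg _) (fun n => hle n _) hε
    have hc := ha.add hb
    simp only [Equiv.apply_symm_apply, add_sub_cancel, add_zero] at hc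
    exact (tendsto_nhds_unique hc tendsto_const_nhds)
  have hl'l : ∀ z, l' (l z) = z := by
    intro z
    have ha : Tendsto (fun n => l' ((S n).F z)) atTop (𝓝 (l' (l z))) :=
      (hl'.continuous.tendsto _).comp (htend z)
    have hb : Tendsto (fun n => (S n).F.symm ((S n).F z) - l' ((S n).F z)) atTop (𝓝 0) := by
      rw [tendsto_zero_iff_norm_tendsto_zero]
      exact squeeze_zero (fun _ => norm_nonneg _) (fun n => hle' n _) hε
    have hc := ha.add hb
    simp only [Equiv.symm_apply_apply, add_sub_cancel, add_zero] at hc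
    exact (tendsto_nhds_unique hc tendsto_const_nhds)
  have hpers : ∀ n z k, (S n).F.symm (z + iv k) = (S n).F.symm z + iv k := by
    intro n z k
    rw [Equiv.symm_apply_eq, hper, Equiv.apply_symm_apply]
  have hlper : ∀ z k, l (z + iv k) = l z + iv k := by
    intro z k
    refine tendsto_nhds_unique (htend (z + iv k)) ?_
    simp only [hper]
    exact (htend z).add_const _
  have hl'per : ∀ z k, l' (z + iv k) = l' z + iv k := by
    intro z k
    refine tendsto_nhds_unique (htend' (z + iv k)) ?_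
    simp only [hpers]
    exact (htend' z).add_const _
  let F : R2 ≃ R2 := ⟨l, l', hl'l, hll'⟩
  have per : ∀ k : ℤ × ℤ, ∃ m : ℤ × ℤ, ∀ z, F (z + iv k) = F z + iv m :=
    fun k => ⟨k, fun z => hlper z k⟩
  have per_symm : ∀ k : ℤ × ℤ, ∃ m : ℤ × ℤ, ∀ z, F.symm (z + iv k) = F.symm z + iv m :=
    fun k => ⟨k, fun z => hl'per z k⟩
  obtain ⟨f, hf⟩ := exists_descend F per per_symm
  have hfc : Continuous f := by
    rw [pr_isOpenQuotientMap.isQuotientMap.continuous_iff]
    have : f ∘ pr = pr ∘ F := by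
      ext1 z
      exact (hf z).symm
    rw [this]
    exact pr_continuous.comp hl.continuous
  have hdist : ∀ n p, dist ((S n).f p) (f p) ≤ 2 * (1/2 : ℝ)^n := by
    intro n p
    obtain ⟨z, rfl⟩ := pr_surjective p
    rw [← (S n).pr_F, ← hf]
    exact (dist_pr_le _ _).trans (hle n z)
  have hpt : ∀ p, Tendsto (fun n => (S n).f p) atTop (𝓝 (f p)) := by
    intro p
    rw [tendsto_iff_dist_tendsto_zero]
    exact squeeze_zero (fun _ => dist_nonneg) (fun n => hdist n p) hε
  have hmp : MeasurePreserving f volume volume := by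
    refine ⟨hfc.measurable, ?_⟩
    have : IsFiniteMeasure (Measure.map f (volume : Measure T2)) :=
      Measure.isFiniteMeasure_map _ _
    refine ext_of_forall_integral_eq_of_IsFiniteMeasure (fun g => ?_)
    rw [integral_map hfc.aemeasurable g.continuous.aestronglyMeasurable]
    have h1 : Tendsto (fun n => ∫ p, g ((S n).f p) ∂(volume : Measure T2)) atTop
        (𝓝 (∫ p, g (f p) ∂(volume : Measure T2))) := by
      refine tendsto_integral_of_dominated_convergence (fun _ => ‖g‖) (fun n => ?_)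
        (integrable_const _) (fun n => ?_) ?_
      · exact (g.continuous.comp (S n).continuous_f).aestronglyMeasurable
      · exact Eventually.of_forall fun p => g.norm_coe_le_norm _
      · exact Eventually.of_forall fun p => (g.continuous.tendsto _).comp (hpt p)
    have h2 : ∀ n, ∫ p, g ((S n).f p) ∂(volume : Measure T2) = ∫ p, g p ∂volume := by
      intro n
      have := integral_map (μ := (volume : Measure T2)) (S n).continuous_f.aemeasurable
        (f := fun p => g p) g.continuous.aestronglyMeasurable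
      rw [← this, (S n).mp.map_eq]
    simp only [h2] at h1
    exact (tendsto_nhds_unique h1 tendsto_const_nhds)
  exact ⟨⟨F, f, hl, hl', per, per_symm, hf, hmp⟩, hdist⟩

end Vale.Agent.P109
end
end

section

section

open MeasureTheory Set Filter Topology
open scoped ContDiff

namespace Vale.Agent.P109

variable {m : ℕ → ℕ}

theorem isUnit_cast {Q : ℕ} {u : ℤ} (hu : IsCoprime u (Q : ℤ)) : IsUnit (u : ZMod Q) := by
  obtain ⟨a, b, hab⟩ := hu
  have : ((a * u + b * Q : ℤ) : ZMod Q) = 1 := by rw [hab]; simp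
  push_cast at this
  rw [ZMod.natCast_self, mul_zero, add_zero] at this
  exact IsUnit.of_mul_eq_one_right _ this

/-- colour of a point at a stage -/
noncomputable def Stage.c (s : Stage m) (p : T2) : ZMod (m s.j) :=
  (s.u : ZMod (m s.j))⁻¹ * strip (m s.j) (s.H.f.symm p).1

theorem Stage.c_add (s : Stage m) (hpos : ∀ n, 0 < m n) (p : T2) :
    s.c (s.S.f p) = s.c p + 1 := by
  unfold Stage.c Stage.S
  rw [conj_f, Equiv.symm_apply_apply, Prod.fst_add]
  have h1 : (pr s.v).1 = (((s.u : ℝ) / m s.j : ℝ) : T1) := rfl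
  rw [h1, strip_add (hpos _), mul_add, ZMod.inv_mul_of_unit _ (isUnit_cast s.hu)]

theorem Stage.measurableSet_c (s : Stage m) (i : ZMod (m s.j)) :
    MeasurableSet (s.c ⁻¹' {i}) := by
  have hu := isUnit_cast s.hu
  have h : s.c ⁻¹' {i} = s.H.f.symm ⁻¹' (Prod.fst ⁻¹' (strip (m s.j) ⁻¹' {(s.u : ZMod (m s.j)) * i})) := by
    ext p
    simp only [Stage.c, mem_preimage, mem_singleton_iff]
    constructor
    · intro h
      rw [← h, ← mul_assoc, ZMod.mul_inv_of_unit _ hu, one_mul]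
    · intro h
      rw [h, ← mul_assoc, ZMod.inv_mul_of_unit _ hu, one_mul]
  rw [h]
  apply s.H.continuous_f_symm.measurable
  apply measurable_fst
  exact measurableSet_strip _ _

theorem t1_prob : IsProbabilityMeasure (volume : Measure T1) := ⟨UnitAddCircle.measure_univ⟩

theorem t2_prob : IsProbabilityMeasure (volume : Measure T2) := by
  haveI := t1_prob
  infer_instance

/-- the good set between the stages `s` and `s'` -/
def goodSet (n : ℕ) (s s' : Stage m) : Set T2 :=
  {p | (s'.H.f.symm p).2 ∈ Gd (m s.j) (eps n) ∧ (s'.H.f.symm p).1 ∈ Gd (m s'.j) (eps n)}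

theorem measurableSet_goodSet (n : ℕ) (s s' : Stage m) : MeasurableSet (goodSet n s s') := by
  apply MeasurableSet.inter
  · exact s'.H.continuous_f_symm.measurable (measurable_snd (measurableSet_Gd _ _))
  · exact s'.H.continuous_f_symm.measurable (measurable_fst (measurableSet_Gd _ _))

theorem volume_goodSet_compl (hpos : ∀ n, 0 < m n) (n : ℕ) (s s' : Stage m) :
    volume (goodSet n s s')ᶜ ≤ ENNReal.ofReal (4 * eps n) := by
  haveI := t1_prob
  have hmp : MeasurePreserving s'.H.f.symm volume volume := s'.H.inv.mp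
  have h1 : (goodSet n s s')ᶜ ⊆ s'.H.f.symm ⁻¹' (Prod.snd ⁻¹' (Gd (m s.j) (eps n))ᶜ) ∪
      s'.H.f.symm ⁻¹' (Prod.fst ⁻¹' (Gd (m s'.j) (eps n))ᶜ) := by
    intro p hp
    simp only [goodSet, mem_compl_iff, mem_ofPred_eq, not_and_or] at hp
    exact hp
  have hsnd : MeasurePreserving (Prod.snd : T2 → T1) volume volume :=
    MeasureTheory.measurePreserving_snd
  have hfst : MeasurePreserving (Prod.fst : T2 → T1) volume volume :=
    MeasureTheory.measurePreserving_fst
  calc volume (goodSet n s s')ᶜ ≤ _ := measure_mono h1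
    _ ≤ volume (s'.H.f.symm ⁻¹' (Prod.snd ⁻¹' (Gd (m s.j) (eps n))ᶜ)) +
      volume (s'.H.f.symm ⁻¹' (Prod.fst ⁻¹' (Gd (m s'.j) (eps n))ᶜ)) := measure_union_le _ _
    _ = volume (Gd (m s.j) (eps n))ᶜ + volume (Gd (m s'.j) (eps n))ᶜ := by
        rw [hmp.measure_preimage, hsnd.measure_preimage, hmp.measure_preimage,
          hfst.measure_preimage]
        · exact (measurableSet_Gd _ _).compl.nullMeasurableSet
        · exact (measurable_fst (measurableSet_Gd _ _).compl).nullMeasurableSet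
        · exact (measurableSet_Gd _ _).compl.nullMeasurableSet
        · exact (measurable_snd (measurableSet_Gd _ _).compl).nullMeasurableSet
    _ ≤ ENNReal.ofReal (2 * eps n) + ENNReal.ofReal (2 * eps n) :=
        add_le_add (volume_Gd_compl_le (hpos _) _) (volume_Gd_compl_le (hpos _) _)
    _ = ENNReal.ofReal (4 * eps n) := by
        rw [← ENNReal.ofReal_add (by have := eps_pos n; positivity)
          (by have := eps_pos n; positivity)]
        congr 1
        ring

/-- between two stages, `H.f.symm` is related through `h` -/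
theorem step_symm {s s' : Stage m} {P : Par}
    (h : s'.H = s.H.comp (P.hmap.comp LMap.swap)) (p : T2) :
    s.H.f.symm p = P.hmap.f ((s'.H.f.symm p).2, (s'.H.f.symm p).1) := by
  have h1 : s'.H.f (s'.H.f.symm p) = p := Equiv.apply_symm_apply _ _
  have h2 : s'.H.f (s'.H.f.symm p) =
      s.H.f (P.hmap.f ((s'.H.f.symm p).2, (s'.H.f.symm p).1)) := by
    conv_lhs => rw [h]
    conv_rhs => rw [h]
    rfl
  rw [Equiv.symm_apply_eq]
  rw [← h2, h1]

theorem mem_good {n : ℕ} {s s' : Stage m} {P : Par} (hj : s'.j = s.j')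
    (hQ : P.Q = m s.j) (hQN : P.Q * P.N = m s.j') (hε : P.ε = eps n)
    {p : T2} (hp : p ∈ goodSet n s s') :
    ((s'.H.f.symm p).2, (s'.H.f.symm p).1) ∈ P.good := by
  obtain ⟨h1, h2⟩ := hp
  unfold Par.good
  refine ⟨?_, ?_⟩
  · rw [hQ, hε]
    exact h1.2
  · rw [hQN, hε, ← hj]
    exact h2.2


theorem strip_step {P : Par} {p : T2} (hp : p ∈ P.good) (hkl : (P.Q : ℤ) ∣ P.kap * P.lam + 1) :
    ∀ (Q Q' : ℕ) (_ : P.Q = Q) (_ : P.Q * P.N = Q') (hd : Q ∣ Q'),
      strip Q (P.hmap.f p).1 = (P.kap : ZMod Q) * ZMod.castHom hd (ZMod Q) (strip Q' p.2) := by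
  rintro _ _ rfl rfl hd
  exact P.strip_hmap hp hkl

theorem c_compat {n : ℕ} {s s' : Stage m} (hst : Step n s s') (hd : m s.j ∣ m s'.j)
    {p : T2} (hp : p ∈ goodSet n s s') :
    ZMod.castHom hd (ZMod (m s.j)) (s'.c p) = s.c p := by
  obtain ⟨P, hQ, hQN, hε, hk1, hk2, -, -, hH⟩ := hst.hH
  have hQN' : P.Q * P.N = m s'.j := by rw [hQN, hst.hj]
  have hg := mem_good hst.hj hQ hQN hε hp
  have h1 := strip_step hg hk2 (m s.j) (m s'.j) hQ hQN' hd
  rw [← step_symm hH p] at h1
  simp only at h1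
  unfold Stage.c
  rw [h1, map_mul]
  set B := ZMod.castHom hd (ZMod (m s.j)) (strip (m s'.j) (s'.H.f.symm p).1) with hB
  set A := ZMod.castHom hd (ZMod (m s.j)) ((s'.u : ZMod (m s'.j))⁻¹) with hA
  have hAw : A * (s'.u : ZMod (m s.j)) = 1 := by
    have : ZMod.castHom hd (ZMod (m s.j)) ((s'.u : ZMod (m s'.j))⁻¹ * (s'.u : ZMod (m s'.j))) = 1 := by
      rw [ZMod.inv_mul_of_unit _ (isUnit_cast s'.hu), map_one]
    rw [map_mul, map_intCast] at this
    exact this
  have hu : (s.u : ZMod (m s.j)) = P.kap * (s'.u : ZMod (m s.j)) := by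
    rw [hst.hu]
    have : ((s.u - P.kap * s.w : ℤ) : ZMod (m s.j)) = 0 := by
      rw [ZMod.intCast_zmod_eq_zero_iff_dvd, ← hQ]
      exact hk1
    push_cast at this
    linear_combination this
  have hinv := ZMod.inv_mul_of_unit _ (isUnit_cast s.hu)
  have hAk : A = (s.u : ZMod (m s.j))⁻¹ * P.kap := by
    calc A = A * ((s.u : ZMod (m s.j))⁻¹ * (s.u : ZMod (m s.j))) := by rw [hinv, mul_one]
      _ = (s.u : ZMod (m s.j))⁻¹ * P.kap * (A * (s'.u : ZMod (m s.j))) := by
          nth_rw 2 [hu]; ring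
      _ = _ := by rw [hAw, mul_one]
  rw [hAk]
  ring

theorem small_fibre (hpos : ∀ n, 0 < m n) {n : ℕ} {s0 s1 s2 s3 : Stage m} (h01 : Step n s0 s1)
    (h12 : Step (n + 1) s1 s2) (h23 : Step (n + 2) s2 s3) {p p' : T2}
    (hp1 : p ∈ goodSet (n + 1) s1 s2) (hp2 : p ∈ goodSet (n + 2) s2 s3)
    (hp1' : p' ∈ goodSet (n + 1) s1 s2) (hp2' : p' ∈ goodSet (n + 2) s2 s3)
    (hc : s3.c p = s3.c p') : dist p p' ≤ (1 / 2 : ℝ) ^ n := by
  obtain ⟨P2, hQ2, hQN2, hε2, hk12, hk22, hl02, hl12, hH2⟩ := h23.hH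
  obtain ⟨P1, hQ1, hQN1, hε1, hk11, hk21, hl01, hl11, hH1⟩ := h12.hH
  have hg2 := mem_good h23.hj hQ2 hQN2 hε2 hp2
  have hg2' := mem_good h23.hj hQ2 hQN2 hε2 hp2'
  have hg1 := mem_good h12.hj hQ1 hQN1 hε1 hp1
  have hg1' := mem_good h12.hj hQ1 hQN1 hε1 hp1'
  have e3 : strip (m s3.j) (s3.H.f.symm p).1 = strip (m s3.j) (s3.H.f.symm p').1 := by
    unfold Stage.c at hc
    have hu := isUnit_cast s3.hu
    have := congrArg (fun t => (s3.u : ZMod (m s3.j)) * t) hc
    simp only [← mul_assoc, ZMod.mul_inv_of_unit _ hu, one_mul] at this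
    exact this
  have hQN2' : P2.Q * P2.N = m s3.j := by rw [hQN2, h23.hj]
  have e3' : strip (P2.Q * P2.N) (s3.H.f.symm p).1 = strip (P2.Q * P2.N) (s3.H.f.symm p').1 := by
    rw [hQN2']; exact e3
  -- level 2
  have e2 : strip P2.Q (s2.H.f.symm p).1 = strip P2.Q (s2.H.f.symm p').1 := by
    rw [step_symm hH2 p, step_symm hH2 p', P2.strip_hmap hg2 hk22, P2.strip_hmap hg2' hk22]
    simp only
    rw [e3']
  have d2 : dist (s2.H.f.symm p).2 (s2.H.f.symm p').2 ≤ (m s1.j' : ℝ) ^ 2 / m s2.j' := by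
    have := P2.dist_snd_hmap hg2 hg2' e3' hl02 hl12
    rw [← step_symm hH2 p, ← step_symm hH2 p'] at this
    have e : ((P2.Q : ℝ) * P2.N) = m s2.j' := by rw [← hQN2]; push_cast; ring
    rw [e, hQ2, h12.hj] at this
    exact this
  have hQN1' : P1.Q * P1.N = P2.Q := by rw [hQN1, hQ2, h12.hj]
  have e2' : strip (P1.Q * P1.N) (s2.H.f.symm p).1 = strip (P1.Q * P1.N) (s2.H.f.symm p').1 := by
    rw [hQN1']; exact e2
  have e2'' : strip P1.Q (s2.H.f.symm p).2 = strip P1.Q (s2.H.f.symm p').2 := by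
    rw [hQ1]
    exact strip_eq_of_dist_lt (hpos _) hp1.1 (lt_of_le_of_lt d2 h12.size1)
  have d1 : dist (s1.H.f.symm p) (s1.H.f.symm p') ≤ 1 / (m s1.j' : ℝ) := by
    rw [step_symm hH1 p, step_symm hH1 p', P1.dist_hmap hg1 hg1' e2' e2'']
    rw [Prod.dist_eq]
    apply max_le
    · refine d2.trans ?_
      have h1 : (0 : ℝ) < m s1.j' := by exact_mod_cast hpos _
      have h2 : (0 : ℝ) < m s2.j' := by exact_mod_cast hpos _
      rw [div_le_div_iff₀ h2 h1]
      have := h12.size2
      nlinarith only [this]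
    · have := (dist_le_of_strip_eq (Nat.mul_pos P1.hQ P1.hN) e2').2.2
      rw [hQN1] at this
      exact this
  have := h01.modulus _ _ d1
  rwa [Equiv.apply_symm_apply, Equiv.apply_symm_apply] at this

end Vale.Agent.P109
end
end

section

section

open MeasureTheory Set Filter Topology
open scoped ContDiff

namespace Vale.Agent.P109

variable {m : ℕ → ℕ}

/-- initial stage -/
noncomputable def Stage.init (m : ℕ → ℕ) : Stage m where
  j := 0
  j' := 1
  hj := by norm_num
  u := 1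
  w := 1
  hu := isCoprime_one_left
  hw := isCoprime_one_left
  H := LMap.one

theorem exists_stages (hpos : ∀ n, 0 < m n) (hm : ∀ n, m n ∣ m (n + 1))
    (hlim : Tendsto m atTop atTop) : ∃ s : ℕ → Stage m, ∀ n, Step n (s n) (s (n + 1)) := by
  classical
  choose f hf using fun (n : ℕ) (s : Stage m) => exists_step hpos hm hlim n s
  exact ⟨fun n => Nat.rec (Stage.init m) f n, fun n => hf n _⟩

theorem exists_coloured_limit (hpos : ∀ n, 0 < m n) (hm : ∀ n, m n ∣ m (n + 1))
    (hlim : Tendsto m atTop atTop) :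
    ∃ (L : LMap) (j : ℕ → ℕ) (_ : StrictMono j) (hd : ∀ n, m (j n) ∣ m (j (n + 1)))
      (b : ∀ n, T2 → ZMod (m (j n))), (∀ n i, MeasurableSet (b n ⁻¹' {i})) ∧
      (∀ n, ∀ᵐ y, b n (L.f y) = b n y + 1) ∧
      (∀ n, ∀ᵐ y, ZMod.castHom (hd n) (ZMod (m (j n))) (b (n + 1) y) = b n y) ∧
      ∃ Y₁ : Set T2, MeasurableSet Y₁ ∧ volume Y₁ᶜ = 0 ∧
        ∀ y ∈ Y₁, ∀ y' ∈ Y₁, (∀ n, b n y = b n y') → y = y' := by
  obtain ⟨s, hs⟩ := exists_stages hpos hm hlim
  obtain ⟨L, hL⟩ := exists_limit (fun n => (s n).S) (fun n z k => conj_F_per _ _ z k)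
    (fun n k hk z => (hs n).close1 k hk z) (fun n k hk z => (hs n).close2 k hk z)
  have hjmono : StrictMono fun n => (s (n + 3)).j := by
    apply strictMono_nat_of_lt_succ
    intro n
    have h1 := (hs (n + 3)).hj
    have h2 := (s (n + 3)).hj
    change (s (n + 3)).j < (s (n + 3 + 1)).j
    rw [h1]
    exact h2
  have hd : ∀ n, m (s (n + 3)).j ∣ m (s (n + 1 + 3)).j := fun n =>
    dvd_of_le hm (hjmono.monotone (Nat.le_succ n))
  haveI := t2_prob
  have he : ∀ n, 4 * eps n = (1 / 2 : ℝ) ^ n := by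
    intro n
    unfold eps
    rw [pow_add]
    ring
  have key := color_limit (Y := T2) volume (fun n => (s (n + 3)).S.f) L.f
    (fun n => (s (n + 3)).S.continuous_f) L.continuous_f (fun n => (s (n + 3)).S.mp) L.mp
    (by
      rw [Metric.tendstoUniformly_iff]
      intro ε hε
      have h1 : Tendsto (fun n : ℕ => 2 * (1 / 2 : ℝ) ^ (n + 3)) atTop (𝓝 0) := by
        have h2 : Tendsto (fun n : ℕ => (1 / 2 : ℝ) ^ (n + 3)) atTop (𝓝 0) :=
          (tendsto_add_atTop_iff_nat 3).mpr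
            (tendsto_pow_atTop_nhds_zero_of_lt_one (by norm_num) (by norm_num))
        simpa only [one_div, inv_pow, mul_zero] using h2.const_mul 2
      filter_upwards [h1.eventually_lt_const hε] with n hn p
      rw [dist_comm]
      exact lt_of_le_of_lt (hL (n + 3) p) hn)
    (fun n => m (s (n + 3)).j) (fun n => hpos _) hd
    (fun n => (s (n + 3)).c) (fun n i => (s (n + 3)).measurableSet_c i)
    (fun n y => (s (n + 3)).c_add hpos y)
    (fun n => goodSet (n + 1) (s (n + 1)) (s (n + 2)) ∩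
      (goodSet (n + 2) (s (n + 2)) (s (n + 3)) ∩ goodSet (n + 3) (s (n + 3)) (s (n + 4))))
    (fun n => (measurableSet_goodSet _ _ _).inter
      ((measurableSet_goodSet _ _ _).inter (measurableSet_goodSet _ _ _)))
    (fun n => ENNReal.ofReal (3 * (1 / 2 : ℝ) ^ (n + 1)))
    (by
      apply Summable.tsum_ofReal_ne_top
      apply Summable.mul_left
      exact (summable_nat_add_iff 1).mpr (summable_geometric_of_lt_one (by norm_num) (by norm_num)))
    (by
      intro n
      rw [compl_inter, compl_inter]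
      refine (measure_union_le _ _).trans ?_
      refine (add_le_add_right (measure_union_le _ _) _).trans ?_
      refine (add_le_add (volume_goodSet_compl hpos _ _ _) (add_le_add
        (volume_goodSet_compl hpos _ _ _) (volume_goodSet_compl hpos _ _ _))).trans ?_
      rw [he, he, he, ← ENNReal.ofReal_add (by positivity) (by positivity),
        ← ENNReal.ofReal_add (by positivity) (by positivity)]
      apply ENNReal.ofReal_le_ofReal
      have e2 : (1 / 2 : ℝ) ^ (n + 2) = (1 / 2 : ℝ) ^ (n + 1) * (1 / 2) := by ring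
      have e3 : (1 / 2 : ℝ) ^ (n + 3) = (1 / 2 : ℝ) ^ (n + 1) * (1 / 4) := by ring
      rw [e2, e3]
      have : 0 < (1 / 2 : ℝ) ^ (n + 1) := by positivity
      linarith only [this])
    (fun n y hy => c_compat (hs (n + 3)) (hd n) hy.2.2)
    (fun n => (1 / 2 : ℝ) ^ n)
    (tendsto_pow_atTop_nhds_zero_of_lt_one (by norm_num) (by norm_num))
    (fun n y hy y' hy' hc => small_fibre hpos (hs n) (hs (n + 1)) (hs (n + 2)) hy.1 hy.2.1
      hy'.1 hy'.2.1 hc)
  obtain ⟨b, hb1, hb2, hb3, hb4⟩ := key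
  exact ⟨L, fun n => (s (n + 3)).j, hjmono, hd, b, hb1, hb2, hb3, hb4⟩

end Vale.Agent.P109
end
end

section

section

open MeasureTheory Set Filter Topology
open scoped ContDiff Manifold

namespace Vale.Agent.P109

/-- the model space -/
abbrev E2 := EuclideanSpace ℝ (Fin 2)

/-- linear identification of the plane with the model space -/
noncomputable def toE : R2 ≃L[ℝ] E2 :=
  (ContinuousLinearEquiv.finTwoArrow ℝ ℝ).symm.trans (EuclideanSpace.equiv (Fin 2) ℝ).symm

theorem toE_mp : MeasurePreserving toE volume volume := by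
  have h1 : MeasurePreserving (MeasurableEquiv.finTwoArrow (α := ℝ)).symm volume volume :=
    (volume_preserving_finTwoArrow ℝ).symm _
  have h2 := PiLp.volume_preserving_toLp (Fin 2)
  exact h2.comp h1

/-- the chart of the torus centred in the square `(a.1, a.1+1) × (a.2, a.2+1)` -/
noncomputable def ch (a : R2) : OpenPartialHomeomorph T2 E2 :=
  ((AddCircle.openPartialHomeomorphCoe (1 : ℝ) a.1).prod
    (AddCircle.openPartialHomeomorphCoe (1 : ℝ) a.2)).symm.trans
    toE.toHomeomorph.toOpenPartialHomeomorph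

/-- the open square -/
def sq (a : R2) : Set R2 := Ioo a.1 (a.1 + 1) ×ˢ Ioo a.2 (a.2 + 1)

theorem ch_source (a : R2) : (ch a).source = {p | p.1 ≠ (a.1 : T1) ∧ p.2 ≠ (a.2 : T1)} := by
  ext p
  simp only [ch, OpenPartialHomeomorph.prod_symm, OpenPartialHomeomorph.trans_toPartialEquiv, OpenPartialHomeomorph.prod_toPartialHomeomorph, OpenPartialHomeomorph.symm_toPartialEquiv, PartialEquiv.trans_source, PartialEquiv.prod_source, PartialEquiv.symm_source, AddCircle.openPartialHomeomorphCoe_target, PartialEquiv.prod_coe, PartialHomeomorph.coe_toPartialEquiv_symm, OpenPartialHomeomorph.coe_toPartialHomeomorph_symm, AddCircle.openPartialHomeomorphCoe_symm_apply, Homeomorph.toOpenPartialHomeomorph_source, preimage_univ, inter_univ, mem_prod, mem_compl_iff, mem_singleton_iff, ne_eq, mem_ofPred_eq]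

theorem ch_symm_apply (a : R2) (x : E2) : (ch a).symm x = pr (toE.symm x) := rfl

theorem mem_ch_target (a : R2) (x : E2) : x ∈ (ch a).target ↔ toE.symm x ∈ sq a := by
  simp only [ch, OpenPartialHomeomorph.prod_symm, OpenPartialHomeomorph.trans_toPartialEquiv, OpenPartialHomeomorph.prod_toPartialHomeomorph, OpenPartialHomeomorph.symm_toPartialEquiv, PartialEquiv.trans_target, Homeomorph.toOpenPartialHomeomorph_target, PartialHomeomorph.coe_toPartialEquiv_symm, OpenPartialHomeomorph.coe_toPartialHomeomorph_symm, Homeomorph.toOpenPartialHomeomorph_symm_apply, ContinuousLinearEquiv.coe_symm_toHomeomorph, PartialEquiv.prod_target, PartialEquiv.symm_target, AddCircle.openPartialHomeomorphCoe_source, univ_inter, mem_preimage, mem_prod, mem_Ioo, sq]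


theorem isOpen_sq (a : R2) : IsOpen (sq a) := isOpen_Ioo.prod isOpen_Ioo

theorem ch_pr {a z : R2} (hz : z ∈ sq a) : ch a (pr z) = toE z := by
  have h : toE z ∈ (ch a).target := by
    rw [mem_ch_target]
    simpa using hz
  have := (ch a).right_inv h
  rw [ch_symm_apply, ContinuousLinearEquiv.symm_apply_apply] at this
  exact this

theorem pr_mem_source {a z : R2} (hz : z ∈ sq a) : pr z ∈ (ch a).source := by
  have h : toE z ∈ (ch a).target := by
    rw [mem_ch_target]
    simpa using hz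
  have := (ch a).map_target h
  rw [ch_symm_apply, ContinuousLinearEquiv.symm_apply_apply] at this
  exact this

/-- local form of a chart along a lifted map -/
theorem ch_eventually {X : Type*} [TopologicalSpace X] {a : R2} {G : X → R2} {x : X}
    (hG : ContinuousAt G x) (hx : pr (G x) ∈ (ch a).source) :
    ∃ k : ℤ × ℤ, ∀ᶠ y in 𝓝 x, ch a (pr (G y)) = toE (G y + iv k) := by
  set w := toE.symm (ch a (pr (G x))) with hw
  have hwsq : w ∈ sq a := by
    rw [← mem_ch_target]
    exact (ch a).map_source hx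
  have hpw : pr w = pr (G x) := by
    rw [hw, ← ch_symm_apply a, (ch a).left_inv hx]
  obtain ⟨k, hk⟩ := pr_eq_iff.mp hpw.symm
  refine ⟨k, ?_⟩
  have hcont : ContinuousAt (fun y => G y + iv k) x := hG.add continuousAt_const
  have hmem : (fun y => G y + iv k) x ∈ sq a := by
    simp only
    rw [← hk]
    exact hwsq
  filter_upwards [hcont.preimage_mem_nhds ((isOpen_sq a).mem_nhds hmem)] with y hy
  rw [← pr_add_iv (G y) k]
  exact ch_pr hy

theorem ch_source_mem (p : T2) : p ∈ (ch (sec p.1 - 1 / 2, sec p.2 - 1 / 2)).source := by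
  have h : (sec p.1, sec p.2) ∈ sq (sec p.1 - 1 / 2, sec p.2 - 1 / 2) := by
    refine ⟨⟨?_, ?_⟩, ⟨?_, ?_⟩⟩ <;> simp only <;> linarith
  have := pr_mem_source h
  rwa [pr_sec] at this

/-- the smooth structure of the torus -/
@[reducible] noncomputable def torusCharted : ChartedSpace E2 T2 where
  atlas := range ch
  chartAt p := ch (sec p.1 - 1 / 2, sec p.2 - 1 / 2)
  mem_chart_source := ch_source_mem
  chart_mem_atlas _ := mem_range_self _

attribute [local instance] torusCharted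

/-- a lifted smooth map is smooth in charts -/
theorem contDiffOn_charts (F : R2 → R2) (hF : ContDiff ℝ ∞ F) (f : T2 → T2)
    (hf : ∀ z, pr (F z) = f (pr z)) (a b : R2) :
    ContDiffOn ℝ ∞ (fun x => ch b (f ((ch a).symm x))) {x | f ((ch a).symm x) ∈ (ch b).source} := by
  intro x hx
  simp only [mem_ofPred_eq] at hx
  apply ContDiffAt.contDiffWithinAt
  have hG : ContinuousAt (fun x : E2 => F (toE.symm x)) x :=
    (hF.continuous.comp toE.symm.continuous).continuousAt
  have hx' : pr (F (toE.symm x)) ∈ (ch b).source := by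
    rw [hf]
    exact hx
  obtain ⟨k, hk⟩ := ch_eventually (a := b) hG hx'
  have hsm : ContDiffAt ℝ ∞ (fun y : E2 => toE (F (toE.symm y) + iv k)) x := by
    apply ContDiff.contDiffAt
    exact toE.contDiff.comp ((hF.comp toE.symm.contDiff).add contDiff_const)
  apply hsm.congr_of_eventuallyEq
  filter_upwards [hk] with y hy
  rw [ch_symm_apply, ← hf, hy]

theorem torus_isManifold : IsManifold (𝓡 2) ∞ T2 := by
  apply isManifold_of_contDiffOn
  rintro _ _ ⟨a, rfl⟩ ⟨b, rfl⟩
  have := contDiffOn_charts id contDiff_id id (fun z => rfl) a b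
  refine ContDiffOn.mono (this.congr ?_) ?_
  · intro x hx
    rfl
  · intro x hx
    simp only [mfld_simps] at hx
    exact hx.2

theorem LMap.contMDiff (L : LMap) : ContMDiff (𝓡 2) (𝓡 2) ∞ L.f := by
  haveI := torus_isManifold
  rw [contMDiff_iff]
  refine ⟨L.continuous_f, fun p q => ?_⟩
  have := contDiffOn_charts L.F L.smooth L.f L.pr_F (sec p.1 - 1 / 2, sec p.2 - 1 / 2)
    (sec q.1 - 1 / 2, sec q.2 - 1 / 2)
  refine ContDiffOn.mono (this.congr ?_) ?_
  · intro x hx
    rfl
  · intro x hx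
    simp only [mfld_simps] at hx
    exact hx.2

/-- the diffeomorphism of the torus -/
noncomputable def LMap.diffeo (L : LMap) : T2 ≃ₘ^∞⟮𝓡 2, 𝓡 2⟯ T2 where
  toEquiv := L.f
  contMDiff_toFun := L.contMDiff
  contMDiff_invFun := L.inv.contMDiff

/-- the half open square -/
def hsq (a : R2) : Set R2 := Ioc a.1 (a.1 + 1) ×ˢ Ioc a.2 (a.2 + 1)

theorem pr_mp (a : R2) : MeasurePreserving pr (volume.restrict (hsq a)) volume := by
  have h := (UnitAddCircle.measurePreserving_mk a.1).prod (UnitAddCircle.measurePreserving_mk a.2)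
  rw [Measure.prod_restrict] at h
  exact h

theorem torus_positive : IsSmoothPositiveVolume (d := 2) (volume : Measure T2) := by
  rintro _ ⟨a, rfl⟩
  refine ⟨fun _ => 1, contDiffOn_const, fun _ _ => one_pos, ?_⟩
  simp only [ENNReal.ofReal_one]
  rw [show (fun _ : E2 => (1 : ENNReal)) = 1 from rfl, withDensity_one]
  have hmeas : Measurable (ch a) := by
    have h1 : (ch a : T2 → E2) = fun p => toE ((AddCircle.equivIco (1 : ℝ) a.1 p.1 : ℝ),
      (AddCircle.equivIco (1 : ℝ) a.2 p.2 : ℝ)) := rfl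
    rw [h1]
    apply toE.continuous.measurable.comp
    exact (measurable_subtype_coe.comp
      ((AddCircle.measurableEquivIco (1 : ℝ) a.1).measurable.comp measurable_fst)).prodMk
      (measurable_subtype_coe.comp
      ((AddCircle.measurableEquivIco (1 : ℝ) a.2).measurable.comp measurable_snd))
  ext V hV
  rw [Measure.map_apply hmeas hV, Measure.restrict_apply (hmeas hV), Measure.restrict_apply hV]
  have hsrc : MeasurableSet (ch a).source := (ch a).open_source.measurableSet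
  rw [← (pr_mp a).measure_preimage ((hmeas hV).inter hsrc).nullMeasurableSet,
    Measure.restrict_apply]
  · have e1 : pr ⁻¹' (ch a ⁻¹' V ∩ (ch a).source) ∩ hsq a = toE ⁻¹' (V ∩ (ch a).target) := by
      ext z
      constructor
      · rintro ⟨⟨h1, h2⟩, h3⟩
        have hz : z ∈ sq a := by
          rw [ch_source] at h2
          obtain ⟨⟨h31, h32⟩, ⟨h33, h34⟩⟩ := h3
          refine ⟨⟨h31, lt_of_le_of_ne h32 ?_⟩, ⟨h33, lt_of_le_of_ne h34 ?_⟩⟩
          · intro h
            apply h2.1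
            unfold pr
            simp only
            rw [h]
            exact AddCircle.coe_add_period 1 a.1
          · intro h
            apply h2.2
            unfold pr
            simp only
            rw [h]
            exact AddCircle.coe_add_period 1 a.2
        rw [mem_preimage, ch_pr hz] at h1
        refine ⟨h1, ?_⟩
        rw [mem_ch_target, ContinuousLinearEquiv.symm_apply_apply]
        exact hz
      · rintro ⟨h1, h2⟩
        rw [mem_ch_target, ContinuousLinearEquiv.symm_apply_apply] at h2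
        refine ⟨⟨?_, pr_mem_source h2⟩, ?_⟩
        · rw [mem_preimage, ch_pr h2]
          exact h1
        · obtain ⟨h3, h4⟩ := h2
          exact ⟨⟨h3.1, h3.2.le⟩, ⟨h4.1, h4.2.le⟩⟩
    rw [e1, toE_mp.measure_preimage]
    exact (hV.inter (ch a).open_target.measurableSet).nullMeasurableSet
  · exact pr_continuous.measurable ((hmeas hV).inter hsrc)

/-- The torus with Lebesgue measure, with its smooth structure, carries the diffeomorphism `L.f`:
every system isomorphic to `L.f` has a smooth positive volume model of dimension 2. -/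
theorem LMap.hasSmoothModel (L : LMap) {X : Type*} [MeasurableSpace X] (μ : Measure X) (T : X → X)
    (iso : IsoModNull μ T (volume : Measure T2) L.f) : HasSmoothModel 2 μ T := by
  haveI : IsProbabilityMeasure (volume : Measure T1) := ⟨UnitAddCircle.measure_univ⟩
  exact ⟨T2, inferInstance, inferInstance, inferInstance, inferInstance, torusCharted,
    torus_isManifold, inferInstance, inferInstance, volume, inferInstance, L.diffeo,
    torus_positive, L.mp, iso⟩

end Vale.Agent.P109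
end
end

section

section

open MeasureTheory Set Filter Topology
open scoped symmDiff ContDiff

namespace Vale.Agent.P109

/-- the torus diffeomorphism as a measurable equivalence -/
def LMap.mequiv (L : LMap) : T2 ≃ᵐ T2 := L.homeo.toMeasurableEquiv

/-- every ergodic system with a separating chain of cyclic colourings is isomorphic to a smooth
area preserving diffeomorphism of the torus -/
theorem hasSmoothModel_of_chain {X : Type*} [MeasurableSpace X] [StandardBorelSpace X]
    (μ : Measure X) [IsProbabilityMeasure μ] (T : X ≃ᵐ X) (hT : MeasurePreserving T μ μ)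
    (m : ℕ → ℕ) (hpos : ∀ i, 0 < m i) (hm : ∀ i, m i ∣ m (i + 1)) (hlim : Tendsto m atTop atTop)
    (a : ∀ i, X → ZMod (m i))
    (ha : ∀ i j, MeasurableSet (a i ⁻¹' {j})) (ha1 : ∀ i, ∀ᵐ x ∂μ, a i (T x) = a i x + 1)
    (ha2 : ∀ i, ∀ᵐ x ∂μ, ZMod.castHom (hm i) (ZMod (m i)) (a (i + 1) x) = a i x)
    (ha3 : ∃ X₁ : Set X, MeasurableSet X₁ ∧ μ X₁ᶜ = 0 ∧
        ∀ x ∈ X₁, ∀ x' ∈ X₁, (∀ n, a n x = a n x') → x = x') :
    HasSmoothModel 2 μ T := by
  obtain ⟨L, j, hj, hd, b, hb, hb1, hb2, hb3⟩ := exists_coloured_limit hpos hm hlim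
  have := t2_prob
  refine L.hasSmoothModel μ T ?_
  have hcompat : ∀ᵐ x ∂μ, ∀ i, ZMod.castHom (hm i) (ZMod (m i)) (a (i + 1) x) = a i x :=
    ae_all_iff.2 ha2
  refine iso_of_colorings μ volume T hT L.mequiv L.mp (fun n => m (j n)) (fun n => hpos _) hd
    (fun n => a (j n)) (fun n => ha _) (fun n => ha1 _) ?_ ?_ b hb hb1 hb2 hb3
  · intro n
    filter_upwards [hcompat] with x hx
    have h1 := down_of_compat m hm (fun n => a n x) hx (hj.monotone (Nat.le_succ n))
    rw [down_eq_castHom m (hd n)] at h1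
    exact h1
  · obtain ⟨X₁, hX₁, hX₁0, hsep⟩ := ha3
    refine ⟨X₁ ∩ (toMeasurable μ {x | ¬ ∀ i,
      ZMod.castHom (hm i) (ZMod (m i)) (a (i + 1) x) = a i x})ᶜ,
      hX₁.inter (measurableSet_toMeasurable _ _).compl, ?_, ?_⟩
    · rw [compl_inter, compl_compl]
      refine measure_union_null hX₁0 ?_
      rw [measure_toMeasurable]
      exact hcompat
    · intro x hx x' hx' h
      have hc : ∀ y, y ∈ (toMeasurable μ {x | ¬ ∀ i,
          ZMod.castHom (hm i) (ZMod (m i)) (a (i + 1) x) = a i x})ᶜ →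
          ∀ i, ZMod.castHom (hm i) (ZMod (m i)) (a (i + 1) y) = a i y := by
        intro y hy
        by_contra hcon
        exact hy (subset_toMeasurable _ _ hcon)
      refine hsep x hx.1 x' hx'.1 fun n => ?_
      have e1 := down_of_compat m hm (fun n => a n x) (hc x hx.2) (hj.id_le n)
      have e2 := down_of_compat m hm (fun n => a n x') (hc x' hx'.2) (hj.id_le n)
      simp only [id_eq] at e1 e2
      rw [← e1, ← e2, h n]

/-- every ergodic system with rational discrete spectrum on a nonatomic standard space has a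
smooth positive-volume model on the 2-torus -/
theorem rational_hasSmoothModel {X : Type*} [MeasurableSpace X] [StandardBorelSpace X]
    (μ : Measure X) [IsProbabilityMeasure μ] (hna : ∀ x, μ {x} = 0) (T : X ≃ᵐ X)
    (hE : Ergodic T μ) (hd : PeriodicSetsDense μ T) : HasSmoothModel 2 μ T := by
  obtain ⟨m, hpos, hm, a, ha, ha1, ha2, X₁, hX₁, hX₁0, hsep⟩ := exists_separating_chain hE hd
  have hlim := chain_tendsto hna hE.toMeasurePreserving m hpos hm a ha ha1 ha2 X₁ hX₁ hX₁0 hsep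
  exact hasSmoothModel_of_chain μ T hE.toMeasurePreserving m hpos hm hlim a ha ha1 ha2
    ⟨X₁, hX₁, hX₁0, hsep⟩

end Vale.Agent.P109
end
end
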